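import Vale.Agent.P347.Colour.Kern
import Vale.Agent.P347.Sep.Product

/-!
# P347: implementing a block update with polylogarithmically many queries
-/

namespace Vale.Agent.P347.Colour

open MeasureTheory ProbabilityTheory Set Real Function
open Vale.Agent.P347
open scoped NNReal

noncomputable section

variable {d χ : ℕ} {c : Fin d → Fin χ} {V : Pt d → ℝ} {a : ℝ}

theorem Cls.measurable_oracle (hV : Cls c V) : Measurable (oracle V) := by
  have h := hV.contDiff_fderiv.continuous
  have := hV.continuous
  unfold oracle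
  exact (Continuous.prodMk (by fun_prop)
    (continuous_pi fun i => h.clm_apply continuous_const)).measurable

/-- The gradient of the conditional potential, from one query at `p`. -/
def grW (a : ℝ) (O : Pt d → Resp d) (y p : Pt d) : Pt d :=
  fun i => (O p).2 i + a * (p i - y i)

/-- One simultaneous descent step. -/
def descend (a : ℝ) (c : Fin d → Fin χ) (k : Fin χ) (O : Pt d → Resp d) (x y t : Pt d) : Pt d :=
  fun i => if c i = k then t i - grW a O y (merge c k x t) i / (3 / 2 + a) else 0

/-- The seeds of one block update. -/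
abbrev Seeds (d K J : ℕ) := Fin d → Fin K → Sep.Trial J

/-- The centre found by descent. -/
def centre (a : ℝ) (c : Fin d → Fin χ) (k : Fin χ) (G : ℕ) (O : Pt d → Resp d) (p : St d) : Pt d :=
  (descend a c k O p.1 p.2)^[G] (mask c k p.1)

/-- The approximate block update. -/
def blockStep (a : ℝ) (c : Fin d → Fin χ) (k : Fin χ) (G : ℕ) {K J : ℕ} (L : ℝ)
    (O : Pt d → Resp d) (w : St d × Seeds d K J) : St d :=
  let t := centre a c k G O w.1
  (merge c k w.1.1 fun i => t i + Sep.pick L K (fun n => (w.2 i n, fun j =>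
    (grW a O w.1.2 (merge c k w.1.1 fun l => t l + Sep.pts (w.2 l n) j / √(1 + a)) i
      - grW a O w.1.2 (merge c k w.1.1 t) i) / √(1 + a))) / √(1 + a), w.1.2)

/-- The law of the seeds. -/
def seedLaw (d K J : ℕ) (L : ℝ≥0) : Measure (Seeds d K J) :=
  Measure.pi fun _ => Measure.pi fun _ => Sep.trialLaw J L

instance instProbSeedLaw (d K J : ℕ) (L : ℝ≥0) : IsProbabilityMeasure (seedLaw d K J L) := by
  unfold seedLaw; infer_instance

/-- The averaged approximate block update. -/
def blockAlg (a : ℝ) (c : Fin d → Fin χ) (G K J : ℕ) (L : ℝ≥0) (k : Fin χ) (O : Pt d → Resp d)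
    (f : St d → ℝ) (p : St d) : ℝ :=
  ∫ ω, f (blockStep a c k G (L : ℝ) O (p, ω)) ∂seedLaw d K J L

theorem impl_blockAlg (a : ℝ) (c : Fin d → Fin χ) (G K J : ℕ) (L : ℝ≥0) (k : Fin χ) :
    Impl (K * J + 1 + G) (blockAlg a c G K J L k) := by
  refine ⟨Seeds d K J, inferInstance, seedLaw d K J L, inferInstance,
    fun O w => blockStep a c k G (L : ℝ) O w, ?_, fun O _ f _ p => rfl⟩
  have hm : ∀ {α : Type} [MeasurableSpace α] {f g : α → Pt d}, Measurable f → Measurable g →
      Measurable fun w => merge c k (f w) (g w) := fun hf hg =>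
    (continuous_merge k).measurable.comp (hf.prodMk hg)
  have hstep : Uses (d := d) (0 + 1) ((St d × Seeds d K J) × Pt d)
      (fun O w => (w.1, descend a c k O w.1.1.1 w.1.1.2 w.2)) := by
    refine ⟨fun w => merge c k w.1.1.1 w.2, _, hm (by fun_prop) (by fun_prop),
      Uses.zero (out := fun b : ((St d × Seeds d K J) × Pt d) × Resp d => (b.1.1, fun i =>
        if c i = k then b.1.2 i
          - (b.2.2 i + a * (merge c k b.1.1.1.1 b.1.2 i - b.1.1.1.2 i)) / (3 / 2 + a) else 0))
        ?_, fun O w => rfl⟩
    refine Measurable.prodMk (by fun_prop) (measurable_pi_lambda _ fun i => ?_)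
    by_cases hi : c i = k
    · simp only [hi, if_true, merge]; fun_prop
    · simp only [hi, if_false]; fun_prop
  have hit : ∀ (O : Pt d → Resp d) (p : St d) (ω : Seeds d K J) (n : ℕ) (t : Pt d),
      (fun w : (St d × Seeds d K J) × Pt d => (w.1, descend a c k O w.1.1.1 w.1.1.2 w.2))^[n]
        ((p, ω), t) = ((p, ω), (descend a c k O p.1 p.2)^[n] t) := by
    intro O p ω n
    induction n with
    | zero => intro t; rfl
    | succ n ih => intro t; rw [iterate_succ_apply, iterate_succ_apply]; exact ih _
  have hmask : Measurable fun w : St d × Seeds d K J => mask c k w.1.1 :=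
    measurable_pi_lambda _ fun i => by unfold mask; split_ifs <;> fun_prop
  have h1 : Uses G (St d × Seeds d K J) (fun O w => centre a c k G O w.1) := by
    have h := (hstep.iterate G).map (h := fun w : St d × Seeds d K J => (w, mask c k w.1.1))
      (measurable_id.prodMk hmask) (g := fun b : (St d × Seeds d K J) × _ => b.2.2)
      (measurable_snd.comp measurable_snd)
    simp only [zero_add, one_mul, hit] at h
    exact h
  have h2 : Uses (0 + 1) ((St d × Seeds d K J) × Pt d)
      (fun O w => O (merge c k w.1.1.1 w.2)) :=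
    ⟨fun w => merge c k w.1.1.1 w.2, _, hm (by fun_prop) (by fun_prop),
      Uses.zero (out := Prod.snd) measurable_snd, fun O w => rfl⟩
  have h3 := (Uses.batch (d := d) (K * J)
    (α := ((St d × Seeds d K J) × Pt d) × Resp d)
    (p := fun m w => merge c k w.1.1.1.1 fun l => w.1.2 l
      + Sep.pts (w.1.1.2 l (finProdFinEquiv.symm m).1) (finProdFinEquiv.symm m).2 / √(1 + a))
    (fun m => hm (by fun_prop) (measurable_pi_lambda _ fun l => by unfold Sep.pts; fun_prop))).map
    (h := id) measurable_id
    (g := fun b : (((St d × Seeds d K J) × Pt d) × Resp d) × (Fin (K * J) → Resp d) =>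
      (merge c k b.1.1.1.1.1 fun i => b.1.1.2 i + Sep.pick (L : ℝ) K (fun n => (b.1.1.1.2 i n,
        fun j => ((b.2 (finProdFinEquiv (n, j))).2 i + a * (merge c k b.1.1.1.1.1 (fun l => b.1.1.2 l
          + Sep.pts (b.1.1.1.2 l n) j / √(1 + a)) i - b.1.1.1.1.2 i)
          - (b.1.2.2 i + a * (merge c k b.1.1.1.1.1 b.1.1.2 i - b.1.1.1.1.2 i))) / √(1 + a)))
            / √(1 + a), b.1.1.1.1.2))
    (by
      refine Measurable.prodMk (hm (by fun_prop) (measurable_pi_lambda _ fun i => ?_)) (by fun_prop)
      refine Measurable.add (by fun_prop) (Measurable.div_const ?_ _)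
      refine (Sep.measurable_pick (L : ℝ) K).comp (measurable_pi_lambda _ fun n =>
        Measurable.prodMk (by fun_prop) (measurable_pi_lambda _ fun j => ?_))
      by_cases hi : c i = k <;> simp only [merge, hi, if_true, if_false, Sep.pts] <;> fun_prop)
  have h := h1.comp (h2.comp h3)
  simp only [id_eq, Equiv.symm_apply_apply, zero_add] at h
  exact h

/-- The potential of one coordinate in a block update. -/
def u (a : ℝ) (V : Pt d → ℝ) (c : Fin d → Fin χ) (k : Fin χ) (p : St d) (i : Fin d) (τ : ℝ) : ℝ :=
  if c i = k then W a V p.2 (update p.1 i τ) - W a V p.2 p.1 else (1 + a) / 2 * τ ^ 2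

theorem update_line (p : Pt d) (i : Fin d) (τ : ℝ) :
    update p i τ = (p - Pi.single i (p i)) + τ • (Pi.single i (1 : ℝ) : Pt d) := by
  funext j
  by_cases h : j = i
  · subst h; simp
  · simp [h]

theorem Cls.deriv_W (hV : Cls c V) (y p : Pt d) (i : Fin d) (τ : ℝ) :
    HasDerivAt (fun τ => W a V y (update p i τ))
      (fderiv ℝ V (update p i τ) (Pi.single i 1) + a * (τ - y i)) τ := by
  have h1 := hV.deriv_line (p - Pi.single i (p i)) (Pi.single i 1) τ
  simp only [← update_line] at h1
  have e : ∀ τ, nr (update p i τ - y) ^ 2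
      = (τ - y i) ^ 2 + ∑ j ∈ Finset.univ.erase i, (p j - y j) ^ 2 := fun τ => by
    rw [nr_sq, ← Finset.add_sum_erase _ _ (Finset.mem_univ i)]
    simp only [Pi.sub_apply, update_self]
    congr 1
    exact Finset.sum_congr rfl fun j hj => by rw [update_of_ne (Finset.ne_of_mem_erase hj)]
  simp only [W, e]
  have h2 := (((hasDerivAt_id τ).sub_const (y i)).pow 2).add_const
    (∑ j ∈ Finset.univ.erase i, (p j - y j) ^ 2)
  exact (h1.add (h2.const_mul (a / 2))).congr_deriv (by simp; ring)

theorem Cls.contDiff_u (hV : Cls c V) (k : Fin χ) (p : St d) (i : Fin d) :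
    ContDiff ℝ 2 (u a V c k p i) := by
  unfold u
  by_cases hi : c i = k
  · simp only [hi, if_true, W, nr_sq]
    have := hV.smooth
    simp only [update_line]
    fun_prop
  · simp only [hi, if_false]
    fun_prop

theorem Cls.u_deriv (hV : Cls c V) {k : Fin χ} (p : St d) {i : Fin d} (hi : c i = k) (τ : ℝ) :
    HasDerivAt (u a V c k p i)
      (fderiv ℝ V (update p.1 i τ) (Pi.single i 1) + a * (τ - p.2 i)) τ := by
  have e : u a V c k p i = fun τ => W a V p.2 (update p.1 i τ) - W a V p.2 p.1 := by
    funext τ; simp [u, hi]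
  rw [e]; exact (hV.deriv_W p.2 p.1 i τ).sub_const _

theorem Cls.u_curv (hV : Cls c V) (_ha : 0 ≤ a) (k : Fin χ) (p : St d) (i : Fin d) (τ : ℝ) :
    1 + a ≤ deriv (deriv (u a V c k p i)) τ ∧ deriv (deriv (u a V c k p i)) τ ≤ 2 + a := by
  by_cases hi : c i = k
  · rw [show deriv (u a V c k p i)
        = fun τ => fderiv ℝ V (update p.1 i τ) (Pi.single i 1) + a * (τ - p.2 i) from
      funext fun τ => (hV.u_deriv p hi τ).deriv]
    have h1 := hV.deriv2_line (p.1 - Pi.single i (p.1 i)) (Pi.single i 1) (Pi.single i 1) τ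
    simp only [← update_line] at h1
    rw [(h1.fun_add (((hasDerivAt_id' τ).sub_const (p.2 i)).const_mul a)).deriv, mul_one]
    have h := hV.curv (update p.1 i τ) (Pi.single i 1)
    have e : ∑ j, (Pi.single i (1 : ℝ) : Pt d) j ^ 2 = 1 := by simp [Pi.single_apply, ite_pow]
    rw [e] at h
    constructor <;> linarith
  · have e : u a V c k p i = fun τ => (1 + a) / 2 * τ ^ 2 := by funext τ; simp [u, hi]
    have e1 : deriv (fun τ : ℝ => (1 + a) / 2 * τ ^ 2) = fun τ => (1 + a) * τ :=
      funext fun τ => ((hasDerivAt_pow 2 τ).const_mul ((1 + a) / 2)).congr_deriv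
        (by push_cast; ring) |>.deriv
    rw [e, e1, deriv_const_mul_field, deriv_id'']
    constructor <;> linarith

/-- A block update separates over its coordinates. -/
theorem Cls.WC_eq (hV : Cls c V) (k : Fin χ) (p : St d) (z : Pt d) :
    WC a V c k p z = W a V p.2 p.1 + ∑ i, u a V c k p i (z i) := by
  obtain ⟨x, y⟩ := p
  set v : Finset (Fin d) → Pt d := fun s i => if i ∈ s then z i - x i else 0
  have key : ∀ s : Finset (Fin d), (∀ i ∈ s, c i = k) →
      W a V y (x + v s) - W a V y x = ∑ i ∈ s, (W a V y (update x i (z i)) - W a V y x) := by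
    intro s
    induction s using Finset.induction with
    | empty => intro _; simp [v, show (fun _ : Fin d => (0 : ℝ)) = 0 from rfl]
    | @insert j s hj ih =>
      intro hs
      rw [Finset.sum_insert hj, ← ih fun i hi => hs i (Finset.mem_insert_of_mem hi)]
      have hd : ∀ i, v s i * (Pi.single j (z j - x j) : Pt d) i = 0 := fun i => by
        by_cases h : i = j
        · subst h; simp [v, hj]
        · simp [h]
      obtain ⟨ξ, hξ⟩ := hV.W_mixed (a := a) y x (v s) (Pi.single j (z j - x j)) hd
      rw [hV.hess_same ξ (z j - x j) (fun i hi => by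
          simp only [v]; split_ifs with h
          · exact absurd (hs i (Finset.mem_insert_of_mem h)) hi
          · rfl) (hs j (Finset.mem_insert_self j s)) (by simp [v, hj])] at hξ
      have e1 : x + v s + Pi.single j (z j - x j) = x + v (insert j s) := by
        funext i; simp only [v, Pi.add_apply, Finset.mem_insert]
        by_cases h : i = j
        · subst h; simp [hj]
        · simp [h]
      have e2 : x + Pi.single j (z j - x j) = update x j (z j) := by
        funext i
        by_cases h : i = j
        · subst h; simp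
        · simp [h]
      rw [e1, e2] at hξ
      linarith
  have h := key (Finset.univ.filter fun i => c i = k) (fun i hi => (Finset.mem_filter.1 hi).2)
  have e : x + v (Finset.univ.filter fun i => c i = k) = merge c k x z := by
    funext i; simp only [v, merge, Pi.add_apply, Finset.mem_filter, Finset.mem_univ, true_and]
    split_ifs <;> ring
  rw [e] at h
  rw [Finset.sum_filter] at h
  have e2 : ∑ i, u a V c k (x, y) i (z i) =
      (W a V y (merge c k x z) - W a V y x) + (1 + a) / 2 * nr (merge c k z 0) ^ 2 := by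
    rw [h, nr_sq, Finset.mul_sum, ← Finset.sum_add_distrib]
    refine Finset.sum_congr rfl fun i _ => ?_
    simp only [u, merge]; split_ifs <;> simp
  simp only [WC, e2]; ring

/-- The derivative of one coordinate potential, from the full gradient. -/
theorem Cls.deriv_u (hV : Cls c V) {k : Fin χ} (p : St d) {i : Fin d} (hi : c i = k) (z : Pt d) :
    deriv (u a V c k p i) (z i) = grW a (oracle V) p.2 (merge c k p.1 z) i := by
  have e : ∀ τ, W a V p.2 (update (merge c k p.1 z) i τ) = u a V c k p i τ
      + (W a V p.2 (merge c k p.1 z) - u a V c k p i (z i)) := fun τ => by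
    have h1 := hV.WC_eq (a := a) k p (update z i τ)
    have h2 := hV.WC_eq (a := a) k p z
    have e1 : merge c k (update z i τ) 0 = merge c k z 0 := by
      funext j; simp only [merge]; split_ifs with h
      · rfl
      · exact update_of_ne (fun hji : j = i => h (hji ▸ hi)) _ _
    have e2 : merge c k p.1 (update z i τ) = update (merge c k p.1 z) i τ := by
      funext j
      by_cases h : j = i
      · subst h; simp [merge, hi]
      · simp [merge, h]
    simp only [WC, e1, e2] at h1 h2
    rw [← Finset.add_sum_erase _ _ (Finset.mem_univ i)] at h1 h2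
    rw [update_self, Finset.sum_congr rfl fun j hj => show
      u a V c k p j (update z i τ j) = u a V c k p j (z j) by
        rw [update_of_ne (Finset.ne_of_mem_erase hj)]] at h1
    linarith
  have h := (hV.deriv_W (a := a) p.2 (merge c k p.1 z) i (z i))
  simp only [e] at h
  rw [show update (merge c k p.1 z) i (z i) = merge c k p.1 z from
    update_eq_iff.2 ⟨by simp [merge, hi], fun j _ => rfl⟩] at h
  have h3 : HasDerivAt (u a V c k p i) _ (z i) :=
    (h.sub_const (W a V p.2 (merge c k p.1 z) - u a V c k p i (z i))).congr_of_eventuallyEq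
      (Filter.Eventually.of_forall fun τ => by ring)
  rw [h3.deriv]
  simp [grW, oracle, merge, hi]

theorem nr_le_sum_abs (v : Pt d) : nr v ≤ ∑ i, |v i| := by
  refine (abs_le_of_sq_le_sq' ?_ (Finset.sum_nonneg fun i _ => abs_nonneg _)).2
  rw [nr_sq]
  refine le_trans (le_of_eq (Finset.sum_congr rfl fun i _ => (sq_abs (v i)).symm)) ?_
  exact Finset.sum_sq_le_sq_sum_of_nonneg fun i _ => abs_nonneg _

/-- Descent makes the gradient geometrically small. -/
theorem Cls.centre_grad (hV : Cls c V) (ha : 0 ≤ a) (k : Fin χ) (p : St d) (G : ℕ) (i : Fin d) :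
    |deriv (u a V c k p i) (centre a c k G (oracle V) p i)|
      ≤ (2 + a) * (nr p.1 + nr p.2) * (1 / 3) ^ G := by
  have hp : 0 ≤ (2 + a) * (nr p.1 + nr p.2) :=
    mul_nonneg (by linarith) (add_nonneg (nr_nonneg _) (nr_nonneg _))
  by_cases hi : c i = k
  swap
  · have e : centre a c k G (oracle V) p i = 0 := by
      cases G with
      | zero => simp [centre, mask, hi]
      | succ n => simp [centre, iterate_succ_apply', descend, hi]
    have e2 : u a V c k p i = fun τ => (1 + a) / 2 * τ ^ 2 := by funext τ; simp [u, hi]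
    rw [e, e2]
    simp
    positivity
  induction G with
  | zero =>
    simp only [centre, iterate_zero_apply, pow_zero, mul_one]
    rw [hV.deriv_u p hi,
      show merge c k p.1 (mask c k p.1) = p.1 by
        funext j; simp only [merge, mask]; split_ifs <;> rfl]
    simp only [grW, oracle]
    refine (abs_add_le _ _).trans ?_
    have h1 := hV.grad_le p.1 i
    rw [abs_mul, abs_of_nonneg ha]
    have h2 : |p.1 i - p.2 i| ≤ nr p.1 + nr p.2 :=
      (abs_sub _ _).trans (add_le_add (abs_apply_le_nr _ _) (abs_apply_le_nr _ _))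
    nlinarith [nr_nonneg p.2, mul_le_mul_of_nonneg_left h2 ha]
  | succ n ih =>
    set t := centre a c k n (oracle V) p
    set g := deriv (u a V c k p i)
    have e : centre a c k (n + 1) (oracle V) p i = t i - g (t i) / (3 / 2 + a) := by
      simp only [centre, iterate_succ_apply', descend, hi, if_true, g, t]
      rw [hV.deriv_u p hi]
    have hd : Differentiable ℝ g :=
      (contDiff_succ_iff_deriv.1 (show ContDiff ℝ (1 + 1) _ from hV.contDiff_u k p i)).2.2
        |>.differentiable one_ne_zero
    have m1 : Monotone fun τ => g τ - (1 + a) * τ :=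
      monotone_of_deriv_nonneg (hd.sub (differentiable_id.const_mul _)) fun τ => by
        rw [deriv_fun_sub (hd τ) (differentiableAt_fun_id.const_mul _), deriv_const_mul_field,
          deriv_id'', mul_one]
        linarith [(hV.u_curv ha k p i τ).1]
    have m2 : Monotone fun τ => (2 + a) * τ - g τ :=
      monotone_of_deriv_nonneg ((differentiable_id.const_mul _).sub hd) fun τ => by
        rw [deriv_fun_sub (differentiableAt_fun_id.const_mul _) (hd τ), deriv_const_mul_field,
          deriv_id'', mul_one]
        linarith [(hV.u_curv ha k p i τ).2]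
    rw [e, pow_succ, ← mul_assoc]
    set q := g (t i) / (3 / 2 + a)
    have hq : g (t i) = q * (3 / 2 + a) := (div_mul_cancel₀ _ (by positivity)).symm
    rw [hq, abs_mul, abs_of_pos (by positivity : (0 : ℝ) < 3 / 2 + a)] at ih
    have hh : |g (t i - q)| ≤ |q| / 2 := by
      rw [abs_le]
      rcases le_total 0 q with hq0 | hq0
      · have i1 := m1 (show t i - q ≤ t i by linarith)
        have i2 := m2 (show t i - q ≤ t i by linarith)
        rw [abs_of_nonneg hq0]
        simp only [hq] at i1 i2
        constructor <;> nlinarith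
      · have i1 := m1 (show t i ≤ t i - q by linarith)
        have i2 := m2 (show t i ≤ t i - q by linarith)
        rw [abs_of_nonpos hq0]
        simp only [hq] at i1 i2
        constructor <;> nlinarith
    nlinarith [abs_nonneg q, mul_nonneg ha (abs_nonneg q)]

theorem sc_sum {v : Fin d → ℝ → ℝ} (hv : ∀ i, Sep.Pot (v i)) (δ : Pt d) :
    SC 1 fun s => ∑ i, v i (s i) + ∑ i, δ i * s i := by
  have hc : Continuous fun s : Pt d => ∑ i, v i (s i) + ∑ i, δ i * s i :=
    (continuous_finsetSum _ fun i _ => (hv i).smooth.continuous.comp (continuous_apply i)).add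
      (by fun_prop)
  refine ⟨hc, fun x z s hs hs' => ?_, exists_grow_add
    (W := fun s => ∑ i, v i (s i)) ⟨0, 1 / 2, by norm_num, fun x => ?_⟩
    (c₀ := 0) (c₁ := nr δ) fun x => ?_⟩
  · have key : ∀ i, v i (s * x i + (1 - s) * z i)
        ≤ s * v i (x i) + (1 - s) * v i (z i) - 1 / 2 * s * (1 - s) * (x i - z i) ^ 2 := by
      intro i
      have hd : Differentiable ℝ (deriv (v i)) := (hv i).contDiff_deriv.differentiable one_ne_zero
      have hv1 : Differentiable ℝ (v i) := (hv i).smooth.differentiable two_ne_zero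
      have e : deriv (Sep.hh (v i)) = fun y => deriv (v i) y - y := funext fun y =>
        ((hv1 y).hasDerivAt.sub (by simpa using ((hasDerivAt_pow 2 y).div_const 2))).deriv
      have hconv : ConvexOn ℝ univ (Sep.hh (v i)) := by
        refine Monotone.convexOn_univ_of_deriv (hv1.sub (by fun_prop)) ?_
        rw [e]
        refine monotone_of_deriv_nonneg (hd.sub differentiable_id) fun y => ?_
        rw [deriv_fun_sub (hd y) differentiableAt_fun_id, deriv_id'']
        linarith [((hv i).curv y).1]
      have h := hconv.2 (mem_univ (x i)) (mem_univ (z i)) hs (sub_nonneg.2 hs') (by ring)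
      simp only [Sep.hh, smul_eq_mul] at h
      linear_combination h
    simp only [Pi.add_apply, Pi.smul_apply, smul_eq_mul, nr_sq, Pi.sub_apply, Finset.mul_sum,
      ← Finset.sum_add_distrib, ← Finset.sum_sub_distrib]
    exact Finset.sum_le_sum fun i _ => by linear_combination key i
  · rw [zero_add, nr_sq, Finset.mul_sum]
    exact Finset.sum_le_sum fun i _ => by linarith [(hv i).lower (x i)]
  · linarith [(abs_le.1 (sum_mul_le δ x)).1]

/-- The approximate block update is close to the exact one. -/
theorem Cls.block_close (hV : Cls c V) (ha : 0 ≤ a) (ha0 : 0 < a) (k : Fin χ) (G : ℕ) {K J : ℕ}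
    {L : ℝ≥0} (hL : 32 ≤ (L : ℝ)) (hJ : 3 * (L : ℝ) ≤ J) (hK : (L : ℝ) ≤ K) (f : St d → ℝ)
    (hf : Measurable f) (hb : ∀ p, |f p| ≤ 1) (p : St d) :
    |blockAlg a c G K J L k (oracle V) f p - blockOp a V c k f p|
      ≤ 26 * d * exp (-(L : ℝ) / 4) + d * (2 + a) * (1 / 3) ^ G * (nr p.1 + nr p.2) := by
  set σ := √(1 + a)
  have hσ : 1 ≤ σ := one_le_sqrt.2 (by linarith)
  have hσ2 : σ ^ 2 = 1 + a := sq_sqrt (by linarith)
  have hσ0 : 0 < σ := by linarith
  set t := centre a c k G (oracle V) p
  set δ : Pt d := fun i => deriv (u a V c k p i) (t i) / σ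
  set v : Fin d → ℝ → ℝ := fun i s =>
    u a V c k p i (t i + s / σ) - u a V c k p i (t i) - δ i * s
  have hd1 : ∀ i, Differentiable ℝ (u a V c k p i) := fun i =>
    (hV.contDiff_u k p i).differentiable two_ne_zero
  have hd2 : ∀ i, Differentiable ℝ (deriv (u a V c k p i)) := fun i =>
    (contDiff_succ_iff_deriv.1 (show ContDiff ℝ (1 + 1) _ from hV.contDiff_u k p i)).2.2
      |>.differentiable one_ne_zero
  have hline : ∀ i s, HasDerivAt (fun s => t i + s / σ) (1 / σ) s := fun i s =>
    ((hasDerivAt_id' s).div_const σ).const_add (t i)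
  have hv' : ∀ i, deriv (v i) = fun s => deriv (u a V c k p i) (t i + s / σ) / σ - δ i := fun i => by
    funext s
    exact ((((hd1 i _).hasDerivAt.comp s (hline i s)).sub_const _).sub
      ((hasDerivAt_id' s).const_mul (δ i))).congr_deriv (by ring) |>.deriv
  have hpot : ∀ i, Sep.Pot (v i) := fun i => by
    refine ⟨?_, by simp [v], by rw [hv']; simp [δ], fun s => ?_⟩
    · have := hV.contDiff_u (a := a) k p i
      simp only [v]; fun_prop
    · have hh : HasDerivAt (deriv (v i)) (deriv (deriv (u a V c k p i)) (t i + s / σ) / σ ^ 2) s := by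
        rw [hv']
        exact ((((hd2 i _).hasDerivAt.comp s (hline i s)).div_const σ).sub_const _).congr_deriv
          (by field_simp)
      rw [hh.deriv, le_div_iff₀ (by positivity), div_le_iff₀ (by positivity), hσ2]
      have := hV.u_curv ha k p i (t i + s / σ)
      constructor <;> linarith
  set h : Pt d → ℝ := fun s => f (merge c k p.1 (fun i => t i + s i / σ), p.2)
  have hhm : Measurable h := hf.comp (((continuous_merge k).comp
    (by fun_prop : Continuous fun s : Pt d => (p.1, fun i => t i + s i / σ))).measurable.prodMk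
      measurable_const)
  have hhb : ∀ s, |h s| ≤ 1 := fun s => hb _
  have hrun : ∀ i, Measurable (Sep.run (J := J) L (deriv (v i)) K) := fun i =>
    Sep.measurable_run L (hpot i).contDiff_deriv.continuous.measurable K
  set R : Seeds d K J → Pt d := fun ω i => Sep.run L (deriv (v i)) K (ω i)
  have hRm : Measurable R := measurable_pi_lambda _ fun i => (hrun i).comp (measurable_pi_apply i)
  have eA : blockAlg a c G K J L k (oracle V) f p = ∫ ω, h (R ω) ∂seedLaw d K J L := by
    refine integral_congr_ae (ae_of_all _ fun ω => congrArg f (Prod.ext ?_ rfl))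
    funext i
    simp only [blockStep, merge_apply]
    by_cases hi : c i = k
    swap
    · simp [hi]
    simp only [hi, if_true, R, Sep.run, t, hv']
    congr 3
    funext n
    refine Prod.ext rfl (funext fun j => ?_)
    simp only [δ, Sep.see]
    rw [← hV.deriv_u p hi, ← hV.deriv_u p hi]
    ring
  have hprob : ∀ i, IsProbabilityMeasure
      ((Measure.pi fun _ : Fin K => Sep.trialLaw J L).map (Sep.run L (deriv (v i)) K)) := fun i =>
    Measure.isProbabilityMeasure_map (hrun i).aemeasurable
  have hgibbs : ∀ i, IsProbabilityMeasure (Sep.gibbs (v i)) := fun i => (hpot i).isProb_gibbs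
  have hmap : (seedLaw d K J L).map R = Measure.pi fun i =>
      (Measure.pi fun _ : Fin K => Sep.trialLaw J L).map (Sep.run L (deriv (v i)) K) :=
    Measure.pi_map_pi fun i => (hrun i).aemeasurable
  have e1 : ∫ ω, h (R ω) ∂seedLaw d K J L = ∫ s, h s ∂Measure.pi fun i =>
      (Measure.pi fun _ : Fin K => Sep.trialLaw J L).map (Sep.run L (deriv (v i)) K) := by
    rw [← hmap, integral_map hRm.aemeasurable hhm.aestronglyMeasurable]
  have b1 := Sep.abs_integral_sub_le (fun B hB => Sep.pi_close d _ (fun i => Sep.gibbs (v i))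
    (13 * exp (-(L : ℝ) / 4)) hprob hgibbs (fun i S hS => by
      rw [map_measureReal_apply (hrun i) hS, ← (hpot i).gauss_ratio hS]
      exact (hpot i).run_close hL hJ hK hS) B hB) (f := fun s => (h s + 1) / 2) (by fun_prop)
    (fun s => by linarith [(abs_le.1 (hhb s)).1]) (fun s => by linarith [(abs_le.1 (hhb s)).2])
  have hi : ∀ (μ : Measure (Pt d)) [IsProbabilityMeasure μ],
      ∫ s, (h s + 1) / 2 ∂μ = (∫ s, h s ∂μ + 1) / 2 := fun μ _ => by
    rw [integral_div, integral_add (BM.integrable (f := h) ⟨hhm, 1, hhb⟩ μ) (integrable_const _),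
      integral_const, probReal_univ, one_smul]
  rw [hi, hi, Sep.pi_gibbs hpot, ← e1, ← eA] at b1
  have s0 : SC 1 fun s : Pt d => ∑ i, v i (s i) := by simpa using sc_sum hpot 0
  have s1 := sc_sum hpot δ
  have b2 := perturb s0 s1 one_pos (nr_nonneg δ) (fun x z => by
    refine le_trans (le_of_eq ?_) (sum_mul_le δ (x - z))
    congr 1; simp only [Pi.sub_apply, mul_sub, Finset.sum_sub_distrib]; ring)
    hhm hhb zero_le_one fun U hU => hU.variance_le_sq hhm hhb
  have hC := hV.sc_WC ha0 k p
  have e2 : blockOp a V c k f p = ∫ s, h s ∂law fun s => ∑ i, v i (s i) + ∑ i, δ i * s i := by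
    simp only [blockOp, hC.integral_law, s1.integral_law]
    set K₀ := exp (-(W a V p.2 p.1 + ∑ i, u a V c k p i (t i)))
    have ee : ∀ s : Pt d, exp (-WC a V c k p (t + σ⁻¹ • s))
        = K₀ * exp (-(∑ i, v i (s i) + ∑ i, δ i * s i)) := fun s => by
      rw [← exp_add, hV.WC_eq k p]
      congr 1
      simp only [v, Pi.add_apply, Pi.smul_apply, smul_eq_mul, Finset.sum_sub_distrib, inv_mul_eq_div]
      ring
    have cv : ∀ F : Pt d → ℝ, ∫ s, F (t + σ⁻¹ • s) = σ ^ d * ∫ z, F z := fun F => by
      rw [Measure.integral_comp_smul volume (fun z => F (t + z)) σ⁻¹,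
        integral_add_left_eq_self F t]
      simp [abs_of_pos hσ0]
    have c1 := cv fun z => exp (-WC a V c k p z)
    have c2 := cv fun z => f (merge c k p.1 z, p.2) * exp (-WC a V c k p z)
    have eh : ∀ s, f (merge c k p.1 (t + σ⁻¹ • s), p.2) = h s := fun s => by
      simp only [h]; congr 3; funext i; simp [inv_mul_eq_div]
    simp only [ee, eh, integral_const_mul] at c1 c2
    rw [show (fun s => h s * (K₀ * exp (-(∑ i, v i (s i) + ∑ i, δ i * s i))))
      = fun s => K₀ * (h s * exp (-(∑ i, v i (s i) + ∑ i, δ i * s i))) by funext s; ring,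
      integral_const_mul] at c2
    rw [← mul_div_mul_left _ _ (pow_ne_zero d hσ0.ne'), ← c1, ← c2,
      mul_div_mul_left _ _ (exp_pos _).ne']
  have hδ : nr δ ≤ d * ((2 + a) * (nr p.1 + nr p.2) * (1 / 3) ^ G) := by
    refine (nr_le_sum_abs δ).trans ((Finset.sum_le_card_nsmul _ _
      ((2 + a) * (nr p.1 + nr p.2) * (1 / 3) ^ G) fun i _ => ?_).trans (by simp))
    simp only [δ, abs_div, abs_of_pos hσ0]
    exact (div_le_self (abs_nonneg _) hσ).trans (hV.centre_grad ha k p G i)
  rw [← e2, sqrt_one, div_one, one_mul] at b2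
  rw [abs_le] at b1 b2 ⊢
  rw [show law (fun s : Pt d => ∑ i, v i (s i))
    = ((volume.withDensity fun x : Fin d → ℝ => ENNReal.ofReal (exp (-∑ i, v i (x i)))) univ)⁻¹ •
        volume.withDensity fun x : Fin d → ℝ => ENNReal.ofReal (exp (-∑ i, v i (x i))) from rfl] at b2
  constructor <;> linarith [b1.1, b1.2, b2.1, b2.2]

end

end Vale.Agent.P347.Colour
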