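import Mathlib

/-!
# P347: the notions used in the statement
-/

namespace Vale.Agent.P347.Colour

open MeasureTheory Set Real

noncomputable section

/-- A point of the space. -/
abbrev Pt (d : ℕ) := Fin d → ℝ

/-- An oracle answer: a value and a gradient. -/
abbrev Resp (d : ℕ) := ℝ × Pt d

variable {d : ℕ}

/-- `F` is computed from `q` adaptive measurable queries: the first point is a measurable function
of the input, and the rest is such a computation with `q - 1` queries from input and answer. -/
def Uses {β : Type} [MeasurableSpace β] :
    ℕ → ∀ (α : Type) [MeasurableSpace α], ((Pt d → Resp d) → α → β) → Prop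
  | 0, α, _, F => ∃ out : α → β, Measurable out ∧ ∀ O a, F O a = out a
  | n + 1, α, _, F => ∃ (p : α → Pt d) (F' : (Pt d → Resp d) → α × Resp d → β),
      Measurable p ∧ Uses n (α × Resp d) F' ∧ ∀ O a, F O a = F' O (a, O (p a))

/-- The exact oracle. -/
def oracle (V : Pt d → ℝ) : Pt d → Resp d :=
  fun x => (V x, fun i => fderiv ℝ V x (Pi.single i 1))

variable {κ : Type*} [Fintype κ]

/-- The law with density proportional to `exp (-W)`. -/
def law (W : (κ → ℝ) → ℝ) : Measure (κ → ℝ) :=
  ((volume.withDensity fun x => ENNReal.ofReal (exp (-W x))) univ)⁻¹ •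
    volume.withDensity fun x => ENNReal.ofReal (exp (-W x))

end

end Vale.Agent.P347.Colour
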