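import Vale.Agent.P347.Colour.Kern

/-!
# P347: invariance and convergence of the exact chains
-/

namespace Vale.Agent.P347.Colour

open MeasureTheory Set Real

noncomputable section

variable {d χ : ℕ} {c : Fin d → Fin χ} {V : Pt d → ℝ} {a : ℝ}

theorem merge_swap_preserving (k : Fin χ) :
    MeasurePreserving (fun w : Pt d × Pt d => (merge c k w.1 w.2, merge c k w.2 w.1))
      (volume.prod volume) (volume.prod volume) := by
  have e := volume_measurePreserving_arrowProdEquivProdArrow ℝ ℝ (Fin d)
  have hs : ∀ i, MeasurePreserving (if c i = k then (Prod.swap : ℝ × ℝ → ℝ × ℝ) else id)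
      volume volume := fun i => by
    split_ifs
    · exact Measure.measurePreserving_swap
    · exact MeasurePreserving.id _
  have h := (e.comp ((volume_preserving_pi hs).comp (e.symm _)))
  rw [Measure.volume_eq_prod] at h
  convert h using 1
  funext w
  ext i <;>
    by_cases hi : c i = k <;>
    simp [merge, hi, MeasurableEquiv.arrowProdEquivProdArrow, Equiv.arrowProdEquivProdArrow]

theorem Cls.block_inv (hV : Cls c V) (ha : 0 < a) (k : Fin χ) {f : St d → ℝ} (hf : BM f)
    (y : Pt d) :
    ∫ z, blockOp a V c k f (z, y) ∂law (W a V y) = ∫ z, f (z, y) ∂law (W a V y) := by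
  obtain ⟨hm, B, hB⟩ := hf
  have hB0 : 0 ≤ B := (abs_nonneg _).trans (hB 0)
  have hW := hV.sc_W ha y
  have hC := fun z => hV.sc_WC ha k ((z, y) : St d)
  rw [hW.integral_law, hW.integral_law]
  congr 1
  set Z := fun z => ∫ w, exp (-WC a V c k (z, y) w)
  set Φ : Pt d × Pt d → ℝ := fun w =>
    f (merge c k w.1 w.2, y) * exp (-WC a V c k (w.1, y) w.2) * exp (-W a V y w.1) / Z w.1
  have hZc : Measurable Z := by
    have h : Continuous fun w : Pt d × Pt d => exp (-WC a V c k (w.1, y) w.2) :=
      ((hV.continuous_WC k).comp (by fun_prop :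
        Continuous fun w : Pt d × Pt d => (((w.1, y) : St d), w.2))).neg.rexp
    exact h.stronglyMeasurable.integral_prod_right'.measurable
  have hΦm : Measurable Φ := by
    have h1 : Measurable fun w : Pt d × Pt d => f (merge c k w.1 w.2, y) :=
      hm.comp ((continuous_merge k).measurable.prodMk measurable_const)
    have h2 : Measurable fun w : Pt d × Pt d => WC a V c k (w.1, y) w.2 :=
      ((hV.continuous_WC k).comp (by fun_prop :
        Continuous fun w : Pt d × Pt d => (((w.1, y) : St d), w.2))).measurable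
    have h3 : Measurable fun w : Pt d × Pt d => W a V y w.1 :=
      hW.cont.measurable.comp measurable_fst
    exact ((h1.mul h2.neg.exp).mul h3.neg.exp).div (hZc.comp measurable_fst)
  have hsec : ∀ z, Integrable fun w => Φ (z, w) := fun z => by
    have h := ((hC z).integrable_mul (f := fun w => f (merge c k z w, y))
      (hm.comp (((continuous_merge k).comp (Continuous.prodMk_right z)).measurable.prodMk
        measurable_const)) fun w => hB _).mul_const (exp (-W a V y z) / Z z)
    exact h.congr (ae_of_all _ fun w => by simp only [Φ]; ring)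
  have hint : Integrable Φ (volume.prod volume) := by
    refine (integrable_prod_iff hΦm.aestronglyMeasurable).2 ⟨ae_of_all _ hsec, ?_⟩
    refine ((hW.integrable).const_mul B).mono'
      hΦm.norm.stronglyMeasurable.integral_prod_right'.aestronglyMeasurable (ae_of_all _ fun z => ?_)
    rw [norm_eq_abs, abs_of_nonneg (integral_nonneg fun w => norm_nonneg _)]
    refine (integral_mono (hsec z).norm (((hC z).integrable.const_mul B).mul_const
      (exp (-W a V y z) / Z z)) fun w => ?_).trans (le_of_eq ?_)
    · simp only [Φ, norm_eq_abs, abs_mul, abs_div, abs_of_pos (exp_pos _),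
        abs_of_pos (show 0 < Z z from (hC z).pos)]
      rw [mul_div_assoc]
      exact mul_le_mul_of_nonneg_right (mul_le_mul_of_nonneg_right (hB _) (exp_pos _).le)
        (div_nonneg (exp_pos _).le (hC z).pos.le)
    · rw [integral_mul_const, integral_const_mul]
      have := (hC z).pos.ne'
      simp only [Z]; field_simp
  have hT := merge_swap_preserving (c := c) k
  calc ∫ z, blockOp a V c k f (z, y) * exp (-W a V y z) = ∫ z, ∫ w, Φ (z, w) := by
        refine integral_congr_ae (ae_of_all _ fun z => ?_)
        simp only [blockOp, (hC z).integral_law, Φ, Z]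
        rw [integral_div, integral_mul_const, div_mul_eq_mul_div]
    _ = ∫ w, Φ w ∂volume.prod volume := (integral_prod _ hint).symm
    _ = ∫ w, Φ (merge c k w.1 w.2, merge c k w.2 w.1) ∂volume.prod volume := by
        conv_lhs => rw [← hT.map_eq]
        rw [integral_map hT.measurable.aemeasurable (by rw [hT.map_eq]; exact hΦm.aestronglyMeasurable)]
    _ = ∫ z, ∫ w, Φ (merge c k z w, merge c k w z) :=
        integral_prod _ ((hT.integrable_comp hΦm.aestronglyMeasurable).2 hint)
    _ = ∫ z, f (z, y) * exp (-W a V y z) := by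
        refine integral_congr_ae (ae_of_all _ fun z => ?_)
        have e1 : ∀ w u, merge c k (merge c k z w) u = merge c k z u := fun w u => by
          funext i; simp only [merge]; split_ifs <;> rfl
        have e2 : ∀ w, merge c k z (merge c k w z) = z := fun w => by
          funext i; simp only [merge]; split_ifs <;> rfl
        have e3 : ∀ w, merge c k (merge c k w z) 0 = merge c k w 0 := fun w => by
          funext i; simp only [merge]; split_ifs <;> rfl
        have eZ : ∀ w, Z (merge c k z w) = Z z := fun w => by simp only [Z, WC, e1]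
        have e : ∀ w, Φ (merge c k z w, merge c k w z)
            = f (z, y) * exp (-W a V y z) / Z z * exp (-WC a V c k (z, y) w) := fun w => by
          simp only [Φ, eZ]
          simp only [WC, e1, e2, e3, neg_add, exp_add]
          ring
        simp only [e]
        rw [integral_const_mul]
        exact div_mul_cancel₀ _ (hC z).pos.ne'

theorem Cls.foldr_inv (hV : Cls c V) (ha : 0 < a) {f : St d → ℝ} (hf : BM f) (p : St d) :
    ∀ l : List (Fin χ), backOp a V (l.foldr (blockOp a V c) f) p = backOp a V f p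
  | [] => rfl
  | k :: l => (hV.block_inv ha k ((Good.foldr (hV.good_block ha) l).bm hf) p.2).trans
      (hV.foldr_inv ha hf p l)

theorem Cls.mean_W (hV : Cls c V) (ha : 0 < a) (hd : 2 ≤ d) (y : Pt d) :
    Integrable nr (law (W a V y)) ∧
      ∫ z, nr z ∂law (W a V y) ≤ √(8 * d) + 2 * nr y := by
  have hy := nr_nonneg y
  refine (hV.sc_W ha y).mean_nr (by positivity) ?_
  refine ((hV.sc_W ha y).moment hd (by linarith) (G := a * nr y) fun x => ?_).trans ?_
  · have h1 := hV.lower x
    have e : nr (x - y) ^ 2 = nr x ^ 2 + nr (0 - y) ^ 2 - 2 * ∑ i, x i * y i := by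
      simp only [nr_sq, Finset.mul_sum, ← Finset.sum_add_distrib, ← Finset.sum_sub_distrib]
      exact Finset.sum_congr rfl fun i _ => by simp only [Pi.sub_apply, Pi.zero_apply]; ring
    have h2 := mul_le_mul_of_nonneg_left ((abs_le.1 (sum_mul_le x y)).2) ha.le
    simp only [W, hV.zero, e]
    nlinarith
  · have h1 : 8 * (d : ℝ) / (1 + a) ≤ 8 * d := div_le_self (by positivity) (by linarith)
    have h2 : 2 * (a * nr y) ^ 2 / (1 + a) ^ 2 ≤ 2 * nr y ^ 2 := by
      rw [div_le_iff₀ (by positivity), mul_pow]
      have : a ^ 2 ≤ (1 + a) ^ 2 := pow_le_pow_left₀ ha.le (by linarith) 2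
      nlinarith [mul_le_mul_of_nonneg_left this (sq_nonneg (nr y))]
    nlinarith [sq_sqrt (show (0 : ℝ) ≤ 8 * d by positivity), mul_nonneg (sqrt_nonneg (8 * d : ℝ)) hy]

/-- A Lipschitz function is close to its mean over the conditional law. -/
theorem Cls.near_back (hV : Cls c V) (ha : 0 < a) (hd : 2 ≤ d) {g : St d → ℝ} (hg : BM g) {M : ℝ}
    (hM : 0 ≤ M) (hl : LipW c Finset.univ (fun _ => M) g) (p : St d) :
    |g p - backOp a V g p| ≤ χ * M * (nr p.1 + (√(8 * d) + 2 * nr p.2)) := by
  obtain ⟨x, y⟩ := p
  obtain ⟨hi, hm⟩ := hV.mean_W ha hd y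
  have := (hV.sc_W ha y).isProb
  have hgy : Integrable (fun z => g (z, y)) (law (W a V y)) :=
    BM.integrable (f := fun z => g (z, y))
      ⟨hg.1.comp measurable_prodMk_right, hg.2.choose, fun z => hg.2.choose_spec _⟩ _
  have h1 : ∀ z, |g (x, y) - g (z, y)| ≤ χ * M * (nr x + nr z) := fun z =>
    (hl.le_nr (fun _ => hM) (fun _ => le_rfl) x z y).trans
      (mul_le_mul_of_nonneg_left (nr_sub_le x z) (by positivity))
  calc |g (x, y) - backOp a V g (x, y)| = |∫ z, (g (x, y) - g (z, y)) ∂law (W a V y)| := by
        rw [integral_sub (integrable_const _) hgy, integral_const, probReal_univ, one_smul]; rfl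
    _ ≤ ∫ z, χ * M * (nr x + nr z) ∂law (W a V y) := abs_integral_le_integral_abs.trans
        (integral_mono ((integrable_const _).sub hgy).abs
          (((integrable_const (nr x)).add hi).const_mul _) h1)
    _ ≤ _ := by
        rw [integral_const_mul, integral_add (integrable_const _) hi, integral_const,
          probReal_univ, one_smul]
        exact mul_le_mul_of_nonneg_left (add_le_add le_rfl hm) (by positivity)

/-- The list of block updates in `n` sweeps. -/
def sweeps (χ n : ℕ) : List (Fin χ) := (List.replicate n (List.finRange χ)).flatten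

theorem sweeps_succ (n : ℕ) : sweeps χ (n + 1) = List.finRange χ ++ sweeps χ n := by
  simp [sweeps, List.replicate_succ]

theorem length_sweeps (n : ℕ) : (sweeps χ n).length = n * χ := by simp [sweeps]

theorem rate_pow (ha : 2 * (χ : ℝ) ≤ a) (ha0 : 0 < a) {j n : ℕ} (hj : j ≤ n * χ) :
    (1 + 1 / (2 * (1 + a))) ^ j ≤ (2 : ℝ) ^ n := by
  have h0 : (0 : ℝ) ≤ 1 / (2 * (1 + a)) := by positivity
  refine (pow_le_pow_right₀ (by linarith) hj).trans ?_
  rw [mul_comm n χ, pow_mul]
  refine pow_le_pow_left₀ (by positivity) ?_ n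
  have h1 : 1 + 1 / (2 * (1 + a)) ≤ exp (1 / (2 * (1 + a))) := by
    linarith [add_one_le_exp (1 / (2 * (1 + a)))]
  refine (pow_le_pow_left₀ (by positivity) h1 χ).trans ?_
  rw [← exp_nat_mul]
  refine (exp_le_exp.2 (show (χ : ℝ) * (1 / (2 * (1 + a))) ≤ 1 / 4 by
    rw [← mul_div_assoc, mul_one, div_le_iff₀ (by positivity)]; linarith)).trans ?_
  rw [show (2 : ℝ) = exp (log 2) by rw [exp_log two_pos]]
  exact exp_le_exp.2 (by linarith [log_two_gt_d9])

/-- Sweeps contract. -/
theorem Cls.sweep_lip (hV : Cls c V) (ha : 2 * (χ : ℝ) ≤ a) (ha0 : 0 < a) {f : St d → ℝ}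
    (hm : Measurable f) (hb : ∀ p, |f p| ≤ 1) :
    ∀ n : ℕ, LipW c Finset.univ (fun _ => (χ : ℝ) / 2 ^ n)
      ((sweeps χ (n + 1)).foldr (blockOp a V c) f) := by
  intro n
  have hS : 1 ≤ √(1 + a) := one_le_sqrt.2 (by linarith)
  induction n with
  | zero =>
    have h := LipW.of_bounded hV ha0 hm hb (sweeps χ 1)
    have e : (sweeps χ 1).toFinset = Finset.univ := by ext k; simp [sweeps]
    rw [e, length_sweeps, one_mul] at h
    refine h.mono fun _ => ?_
    rw [pow_zero, div_one]
    exact div_le_self (Nat.cast_nonneg χ) (by linarith)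
  | succ n ih =>
    have hg := (Good.foldr (hV.good_block ha0) (sweeps χ (n + 1))).bdd f 1 hm hb
    obtain ⟨w, -, -, hw, h⟩ := LipW.of_lip hV ha0 hg.1 hg.2 (by positivity) ih (List.finRange χ)
    rw [sweeps_succ, List.foldr_append]
    refine h.mono fun k => (hw k (List.mem_finRange k)).trans ?_
    have h1 := rate_pow (χ := χ) ha ha0 (le_of_eq (one_mul χ).symm)
    rw [List.length_finRange]
    have h2 : (χ : ℝ) * (1 / (2 * (1 + a))) ≤ 1 / 4 := by
      rw [← mul_div_assoc, mul_one, div_le_iff₀ (by positivity)]; linarith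
    refine (mul_le_mul h2 (mul_le_mul_of_nonneg_left h1 (by positivity)) (by positivity)
      (by norm_num)).trans (le_of_eq ?_)
    rw [pow_succ]; ring

/-- One outer step, on functions of the point. -/
def outer (a : ℝ) (V : Pt d → ℝ) (φ : Pt d → ℝ) (x : Pt d) : ℝ :=
  fwdOp a (backOp a V fun p => φ p.1) (x, 0)

theorem Cls.sc (hV : Cls c V) : SC 1 V :=
  ⟨hV.continuous, fun x z s hs hs' => by linarith [hV.conv x z s hs hs'],
    0, 1 / 2, by norm_num, fun x => by linarith [hV.lower x]⟩

theorem Cls.good_outer (hV : Cls c V) (ha : 0 < a) {φ : Pt d → ℝ} {B : ℝ} (hm : Measurable φ)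
    (hB : ∀ x, |φ x| ≤ B) : Measurable (outer a V φ) ∧ ∀ x, |outer a V φ x| ≤ B := by
  have h1 := (hV.good_back ha).bdd (fun p : St d => φ p.1) B (hm.comp measurable_fst) fun p => hB _
  have h2 := (good_fwd ha).bdd _ B h1.1 h1.2
  exact ⟨h2.1.comp measurable_prodMk_right, fun x => h2.2 _⟩

theorem Cls.outer_lip (hV : Cls c V) (ha : 0 < a) {φ : Pt d → ℝ} (hm : Measurable φ) {B S : ℝ}
    (hB : ∀ x, |φ x| ≤ B) (hS0 : 0 ≤ S)
    (hS : ∀ U, SC (1 + a) U → ∫ z, (φ z - ∫ w, φ w ∂law U) ^ 2 ∂law U ≤ S ^ 2) (x x' : Pt d) :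
    |outer a V φ x - outer a V φ x'| ≤ S * a / √(1 + a) * nr (x - x') := by
  have key : ∀ y y', |backOp a V (fun p => φ p.1) (0, y) - backOp a V (fun p => φ p.1) (0, y')|
      ≤ S * (a * nr (y - y') / √(1 + a)) := fun y y' => by
    refine perturb (hV.sc_W ha y') (hV.sc_W ha y) (by linarith)
      (by positivity [nr_nonneg (y - y')]) (fun z z' => ?_) hm hB hS0 hS
    have e : W a V y z - W a V y' z - (W a V y z' - W a V y' z')
        = -(a * ∑ i, (z - z') i * (y - y') i) := by
      simp only [W, nr_sq, Pi.sub_apply, Finset.mul_sum]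
      rw [← sub_eq_zero]
      simp only [add_sub_add_left_eq_sub, sub_neg_eq_add, ← Finset.sum_sub_distrib,
        ← Finset.sum_add_distrib]
      exact Finset.sum_eq_zero fun i _ => by ring
    rw [e, abs_neg, abs_mul, abs_of_pos ha, mul_assoc, mul_comm (nr (y - y'))]
    exact mul_le_mul_of_nonneg_left (sum_mul_le _ _) ha.le
  have := (sc_quad (d := d) ha).isProb
  have hb := (hV.good_back ha).bdd (fun p : St d => φ p.1) B (hm.comp measurable_fst) fun p => hB _
  have hi : ∀ x, Integrable (fun n => backOp a V (fun p => φ p.1) (x, x + n))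
      (law fun n : Pt d => a / 2 * nr n ^ 2) := fun x =>
    BM.integrable (f := fun n => backOp a V (fun p => φ p.1) (x, x + n))
      ⟨hb.1.comp (by fun_prop), B, fun n => hb.2 _⟩ _
  unfold outer fwdOp
  rw [← integral_sub (hi x) (hi x'), ← norm_eq_abs]
  refine (norm_integral_le_of_norm_le_const (ae_of_all _ fun n => ?_)).trans
    (le_of_eq (by rw [probReal_univ, mul_one]))
  rw [norm_eq_abs]
  refine (key (x + n) (x' + n)).trans (le_of_eq ?_)
  rw [add_sub_add_right_eq_sub]; ring

theorem Cls.outer_inv (hV : Cls c V) (ha : 0 < a) {φ : Pt d → ℝ} (hm : Measurable φ) {B : ℝ}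
    (hB : ∀ x, |φ x| ≤ B) : ∫ x, outer a V φ x ∂law V = ∫ x, φ x ∂law V := by
  have hq := sc_quad (d := d) ha
  set Zq := ∫ n : Pt d, exp (-(a / 2 * nr n ^ 2))
  have hc := hV.continuous
  have hJc : Continuous fun w : Pt d × Pt d => exp (-W a V w.2 w.1) := by unfold W; fun_prop
  have hinner : ∀ x, ∫ y, exp (-W a V y x) = exp (-V x) * Zq := fun x => by
    simp only [W, neg_add, exp_add, integral_const_mul]
    congr 1
    exact integral_sub_left_eq_self (fun n : Pt d => exp (-(a / 2 * nr n ^ 2))) volume x
  have hJi : ∀ x, Integrable fun y => exp (-W a V y x) := fun x =>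
    Integrable.of_integral_ne_zero (by
      rw [hinner]; exact (mul_pos (exp_pos _) hq.pos).ne')
  have hint : ∀ h : Pt d × Pt d → ℝ, Measurable h → (∀ w, |h w| ≤ B) →
      Integrable (fun w => h w * exp (-W a V w.2 w.1)) (volume.prod volume) := fun h hh hhB => by
    have hJ : Integrable (fun w : Pt d × Pt d => exp (-W a V w.2 w.1)) (volume.prod volume) := by
      refine (integrable_prod_iff hJc.aestronglyMeasurable).2 ⟨ae_of_all _ hJi, ?_⟩
      simp only [norm_eq_abs, abs_of_pos (exp_pos _), hinner]
      exact hV.sc.integrable.mul_const _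
    refine (hJ.const_mul B).mono' (hh.mul hJc.measurable).aestronglyMeasurable
      (ae_of_all _ fun w => ?_)
    rw [norm_eq_abs, abs_mul, abs_of_pos (exp_pos _)]
    exact mul_le_mul_of_nonneg_right (hhB w) (exp_pos _).le
  set g := fun y => backOp a V (fun p => φ p.1) ((0, y) : St d)
  have hb := (hV.good_back ha).bdd (fun p : St d => φ p.1) B (hm.comp measurable_fst) fun p => hB _
  have hgm : Measurable g := hb.1.comp measurable_prodMk_left
  have hgB : ∀ y, |g y| ≤ B := fun y => hb.2 _
  rw [hV.sc.integral_law, hV.sc.integral_law]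
  congr 1
  have e1 : ∀ x, outer a V φ x * exp (-V x) = (∫ y, g y * exp (-W a V y x)) / Zq := fun x => by
    rw [show outer a V φ x = ∫ n, g (x + n) ∂law (fun n : Pt d => a / 2 * nr n ^ 2) from rfl,
      hq.integral_law, div_mul_eq_mul_div, ← integral_mul_const]
    congr 1
    rw [← integral_add_left_eq_self (fun y => g y * exp (-W a V y x)) x]
    congr 1; funext n
    rw [W, show x - (x + n) = (-1 : ℝ) • n by funext i; simp, nr_smul, abs_neg, abs_one, one_mul,
      neg_add, exp_add]
    ring
  simp only [e1, integral_div]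
  rw [integral_integral_swap (hint (fun w => g w.2) (hgm.comp measurable_snd) fun w => hgB _)]
  have e2 : ∀ y, ∫ x, g y * exp (-W a V y x) = ∫ z, φ z * exp (-W a V y z) := fun y => by
    rw [integral_const_mul]
    simp only [g, backOp, (hV.sc_W ha y).integral_law]
    exact div_mul_cancel₀ _ (hV.sc_W ha y).pos.ne'
  simp only [e2]
  rw [← integral_integral_swap (hint (fun w => φ w.1) (hm.comp measurable_fst) fun w => hB _)]
  simp only [integral_const_mul, hinner, ← mul_assoc, integral_mul_const]
  exact mul_div_cancel_right₀ _ hq.pos.ne'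

end

end Vale.Agent.P347.Colour
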