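import Vale.Agent.P347.Colour.Pot

/-!
# P347: exact block updates and their contraction
-/

namespace Vale.Agent.P347.Colour

open MeasureTheory Set Real

noncomputable section

variable {d χ : ℕ}

/-- A state: the point and the auxiliary point. -/
abbrev St (d : ℕ) := Pt d × Pt d

theorem SC.integrable_law {κ : Type*} [Fintype κ] {m : ℝ} {W : (κ → ℝ) → ℝ} (h : SC m W)
    {f : (κ → ℝ) → ℝ} (hf : Measurable f) {c₀ c₁ : ℝ} (hb : ∀ x, |f x| ≤ c₀ + c₁ * nr x ^ 2) :
    Integrable f (law W) := by
  have := h.cont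
  refine Integrable.smul_measure ?_ (by rw [h.mass]; simp [h.pos])
  rw [integrable_withDensity_iff (by fun_prop) (ae_of_all _ fun x => ENNReal.ofReal_lt_top)]
  simpa [ENNReal.toReal_ofReal (exp_pos _).le]
    using integrable_mul_exp_of_grow h.cont h.grow hf hb

theorem SC.mean_nr {κ : Type*} [Fintype κ] {m : ℝ} {W : (κ → ℝ) → ℝ} (h : SC m W) {s : ℝ}
    (hs : 0 ≤ s) (h2 : ∫ x, nr x ^ 2 ∂law W ≤ s ^ 2) :
    Integrable nr (law W) ∧ ∫ x, nr x ∂law W ≤ s := by
  have : IsProbabilityMeasure (law W) := h.isProb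
  have hi2 : Integrable (fun x => nr x ^ 2) (law W) :=
    h.integrable_law (c₀ := 0) (c₁ := 1) (by fun_prop) fun x => by simp
  have hi : Integrable nr (law W) :=
    h.integrable_law (c₀ := 1) (c₁ := 1) (by fun_prop) fun x => by
      rw [abs_of_nonneg (nr_nonneg x)]; nlinarith [sq_nonneg (nr x - 1), nr_nonneg x]
  refine ⟨hi, (le_abs_self _).trans (le_trans (le_of_eq ?_) ((abs_integral_mul_le
    (f := nr) (g := fun _ => (1 : ℝ)) hi2 (integrable_const _) h2
    (le_of_eq (show ∫ _, (1 : ℝ) ^ 2 ∂law W = (1 : ℝ) ^ 2 by simp)) hs zero_le_one).trans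
    (le_of_eq (mul_one s))))⟩
  simp

theorem Good.of_pot {σ : Type} [MeasurableSpace σ] [TopologicalSpace σ] [BorelSpace σ]
    [SecondCountableTopology σ] {m : ℝ} {U : σ → Pt d → ℝ}
    (hU : Continuous fun w : σ × Pt d => U w.1 w.2) (hsc : ∀ p, SC m (U p))
    {Φ : σ × Pt d → σ} (hΦ : Measurable Φ) :
    Good fun f p => ∫ z, f (Φ (p, z)) ∂law (U p) := by
  have : ∀ p, IsProbabilityMeasure (law (U p)) := fun p => (hsc p).isProb
  have hm : ∀ p, Measurable fun z => Φ (p, z) := fun p => hΦ.comp measurable_prodMk_left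
  have : ∀ p, IsProbabilityMeasure ((law (U p)).map fun z => Φ (p, z)) := fun p =>
    Measure.isProbabilityMeasure_map (hm p).aemeasurable
  refine Good.of_kernel (fun p => (law (U p)).map fun z => Φ (p, z)) (fun f hf p => ?_) fun f hf => ?_
  · rw [integral_map (φ := fun z => Φ (p, z)) (hm p).aemeasurable hf.1.aestronglyMeasurable]
  · simp only [(hsc _).integral_law]
    have h1 : Measurable fun w : σ × Pt d => exp (-U w.1 w.2) := hU.measurable.neg.exp
    have h2 : Measurable fun w : σ × Pt d => f (Φ w) * exp (-U w.1 w.2) :=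
      (hf.1.comp hΦ).mul h1
    exact (h2.stronglyMeasurable.integral_prod_right'.measurable).div
      h1.stronglyMeasurable.integral_prod_right'.measurable

/-- The conditional potential of the point given the auxiliary point. -/
def W (a : ℝ) (V : Pt d → ℝ) (y x : Pt d) : ℝ := V x + a / 2 * nr (x - y) ^ 2

/-- Replace the coordinates of colour `k`. -/
def merge (c : Fin d → Fin χ) (k : Fin χ) (x z : Pt d) : Pt d :=
  fun i => if c i = k then z i else x i

/-- Keep the coordinates of colour `k`. -/
def mask (c : Fin d → Fin χ) (k : Fin χ) (v : Pt d) : Pt d := fun i => if c i = k then v i else 0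

/-- The potential of a block update, padded by a Gaussian on the other coordinates. -/
def WC (a : ℝ) (V : Pt d → ℝ) (c : Fin d → Fin χ) (k : Fin χ) (p : St d) (z : Pt d) : ℝ :=
  W a V p.2 (merge c k p.1 z) + (1 + a) / 2 * nr (merge c k z 0) ^ 2

/-- The exact block update. -/
def blockOp (a : ℝ) (V : Pt d → ℝ) (c : Fin d → Fin χ) (k : Fin χ) (f : St d → ℝ) (p : St d) : ℝ :=
  ∫ z, f (merge c k p.1 z, p.2) ∂law (WC a V c k p)

/-- The exact backward step. -/
def backOp (a : ℝ) (V : Pt d → ℝ) (f : St d → ℝ) (p : St d) : ℝ :=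
  ∫ z, f (z, p.2) ∂law (W a V p.2)

/-- The forward step. -/
def fwdOp (a : ℝ) (f : St d → ℝ) (p : St d) : ℝ :=
  ∫ n, f (p.1, p.1 + n) ∂law (fun n : Pt d => a / 2 * nr n ^ 2)

variable {c : Fin d → Fin χ} {V : Pt d → ℝ} {a : ℝ}

@[fun_prop]
theorem continuous_merge (k : Fin χ) : Continuous fun w : Pt d × Pt d => merge c k w.1 w.2 := by
  refine continuous_pi fun i => ?_
  unfold merge; split_ifs <;> fun_prop

theorem merge_apply (k : Fin χ) (x z : Pt d) (i : Fin d) :
    merge c k x z i = if c i = k then z i else x i := rfl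

theorem merge_sub (k : Fin χ) (x x' z z' : Pt d) :
    merge c k x z - merge c k x' z' = merge c k (x - x') (z - z') := by
  funext i; simp only [merge, Pi.sub_apply]; split_ifs <;> rfl

theorem Cls.continuous (hV : Cls c V) : Continuous V := hV.smooth.continuous

theorem sc_quad (ha : 0 < a) : SC a fun n : Pt d => a / 2 * nr n ^ 2 := by
  refine ⟨by fun_prop, fun x z s _ _ => le_of_eq ?_, 0, a / 2, by positivity, fun x => by simp⟩
  have e : nr (s • x + (1 - s) • z) ^ 2
      = s * nr x ^ 2 + (1 - s) * nr z ^ 2 - s * (1 - s) * nr (x - z) ^ 2 := by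
    simp only [nr_sq, Finset.mul_sum, ← Finset.sum_add_distrib, ← Finset.sum_sub_distrib]
    refine Finset.sum_congr rfl fun i _ => ?_
    simp; ring
  rw [e]; ring

theorem Cls.sc_W (hV : Cls c V) (ha : 0 < a) (y : Pt d) : SC (1 + a) (W a V y) := by
  have := hV.continuous
  refine ⟨by unfold W; fun_prop, fun x z s hs hs' => ?_, 0, 1 / 2, by norm_num, fun x => ?_⟩
  · have h1 := hV.conv x z s hs hs'
    have h2 := (sc_quad (d := d) ha).conv (x - y) (z - y) s hs hs'
    rw [show s • (x - y) + (1 - s) • (z - y) = s • x + (1 - s) • z - y by module,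
      sub_sub_sub_cancel_right] at h2
    simp only [W]; linarith
  · have := hV.lower x
    have : 0 ≤ a / 2 * nr (x - y) ^ 2 := by positivity
    simp only [W]; linarith

theorem nr_merge_split (k : Fin χ) (x v : Pt d) :
    nr (merge c k (0 : Pt d) v) ^ 2 + nr (merge c k v 0) ^ 2 = nr v ^ 2 := by
  simp only [nr_sq, merge, ← Finset.sum_add_distrib]
  refine Finset.sum_congr rfl fun i _ => ?_
  split_ifs <;> simp

theorem Cls.continuous_WC (hV : Cls c V) (k : Fin χ) :
    Continuous fun w : St d × Pt d => WC a V c k w.1 w.2 := by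
  have := hV.continuous
  have h1 : Continuous fun w : St d × Pt d => merge c k w.1.1 w.2 :=
    (continuous_merge k).comp (by fun_prop : Continuous fun w : St d × Pt d => (w.1.1, w.2))
  have h2 : Continuous fun w : St d × Pt d => merge c k w.2 0 :=
    (continuous_merge k).comp (by fun_prop : Continuous fun w : St d × Pt d => (w.2, (0 : Pt d)))
  unfold WC W; fun_prop

theorem Cls.sc_WC (hV : Cls c V) (ha : 0 < a) (k : Fin χ) (p : St d) :
    SC (1 + a) (WC a V c k p) := by
  refine ⟨(hV.continuous_WC k).comp (Continuous.prodMk_right p), fun x z s hs hs' => ?_, 0, 1 / 2,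
    by norm_num, fun z => ?_⟩
  · have h1 := (hV.sc_W ha p.2).conv (merge c k p.1 x) (merge c k p.1 z) s hs hs'
    have h2 := (sc_quad (d := d) (show 0 < 1 + a by linarith)).conv (merge c k x 0)
      (merge c k z 0) s hs hs'
    have e1 : s • merge c k p.1 x + (1 - s) • merge c k p.1 z
        = merge c k p.1 (s • x + (1 - s) • z) := by
      funext i; simp only [merge, Pi.add_apply, Pi.smul_apply, smul_eq_mul]; split_ifs <;> ring
    have e2 : s • merge c k x 0 + (1 - s) • merge c k z 0
        = merge c k (s • x + (1 - s) • z) 0 := by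
      funext i; simp only [merge, Pi.add_apply, Pi.smul_apply, smul_eq_mul]
      split_ifs <;> simp
    rw [e1, merge_sub, sub_self] at h1
    rw [e2, merge_sub, sub_zero] at h2
    rw [← nr_merge_split (c := c) k p.1 (x - z)]
    simp only [WC]; linarith
  · have h1 := hV.lower (merge c k p.1 z)
    have h2 : nr z ^ 2 ≤ nr (merge c k p.1 z) ^ 2 + nr (merge c k z 0) ^ 2 := by
      simp only [nr_sq, merge, ← Finset.sum_add_distrib]
      refine Finset.sum_le_sum fun i _ => ?_
      split_ifs
      · simp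
      · linarith [sq_nonneg (p.1 i)]
    have h3 : 0 ≤ a / 2 * nr (merge c k p.1 z - p.2) ^ 2 := by positivity
    simp only [WC, W]; nlinarith [sq_nonneg (nr (merge c k z 0))]

theorem Cls.good_block (hV : Cls c V) (ha : 0 < a) (k : Fin χ) : Good (blockOp a V c k) :=
  Good.of_pot (U := WC a V c k) (hV.continuous_WC k) (fun p => hV.sc_WC ha k p)
    (Φ := fun w => (merge c k w.1.1 w.2, w.1.2)) (((continuous_merge k).comp
      (by fun_prop : Continuous fun w : St d × Pt d => (w.1.1, w.2))).measurable.prodMk (by fun_prop))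

theorem Cls.good_back (hV : Cls c V) (ha : 0 < a) : Good (backOp a V) := by
  have := hV.continuous
  exact Good.of_pot (U := fun p : St d => W a V p.2) (by unfold W; fun_prop)
    (fun p => hV.sc_W ha p.2) (Φ := fun w => (w.2, w.1.2)) (by fun_prop)

theorem good_fwd (ha : 0 < a) : Good (fwdOp (d := d) a) :=
  Good.of_pot (U := fun _ n => a / 2 * nr n ^ 2) (by fun_prop) (fun _ => sc_quad ha)
    (Φ := fun w => (w.1.1, w.1.1 + w.2)) (by fun_prop)

theorem Cls.W_mixed (hV : Cls c V) (y p u v : Pt d) (huv : ∀ i, u i * v i = 0) :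
    ∃ ξ, W a V y (p + u + v) - W a V y (p + u) - (W a V y (p + v) - W a V y p)
      = fderiv ℝ (fderiv ℝ V) ξ u v := by
  obtain ⟨ξ, hξ⟩ := hV.exists_mixed p u v
  refine ⟨ξ, ?_⟩
  have e : nr (p + u + v - y) ^ 2 - nr (p + u - y) ^ 2 - (nr (p + v - y) ^ 2 - nr (p - y) ^ 2)
      = 0 := by
    simp only [nr_sq, ← Finset.sum_sub_distrib]
    exact Finset.sum_eq_zero fun i _ => by
      simp only [Pi.sub_apply, Pi.add_apply]; linear_combination 2 * huv i
  simp only [W]
  linear_combination hξ + a / 2 * e

theorem nr_sum_le {ι : Type*} (s : Finset ι) (u : ι → Pt d) :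
    nr (∑ j ∈ s, u j) ≤ ∑ j ∈ s, nr (u j) := by
  classical
  induction s using Finset.induction with
  | empty => simp [nr_zero]
  | insert a s ha ih =>
    rw [Finset.sum_insert ha, Finset.sum_insert ha]
    exact (nr_add _ _).trans (by linarith)

theorem nr_off_le (k : Fin χ) (v : Pt d) :
    nr (merge c k v 0) ≤ ∑ j ∈ Finset.univ.erase k, nr (mask c j v) := by
  refine le_trans (le_of_eq ?_) (nr_sum_le _ _)
  congr 1
  funext i
  simp [merge, mask, Finset.sum_apply]

theorem nr_mask_le (k : Fin χ) (v : Pt d) : nr (mask c k v) ≤ nr v := by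
  refine (abs_le_of_sq_le_sq' ?_ (nr_nonneg v)).2
  rw [nr_sq, nr_sq]
  refine Finset.sum_le_sum fun i _ => ?_
  unfold mask; split_ifs <;> simp [sq_nonneg]

theorem mask_merge (j k : Fin χ) (v : Pt d) :
    mask c j (merge c k v 0) = if j = k then 0 else mask c j v := by
  funext i
  by_cases hjk : j = k
  · subst hjk; simp only [if_true, mask, merge]; split_ifs <;> rfl
  · simp only [hjk, if_false, mask, merge]
    split_ifs with h1 h2 <;> simp_all

/-- Weighted Lipschitz bound for changes of the coordinates with colours in `D`. -/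
def LipW (c : Fin d → Fin χ) (D : Finset (Fin χ)) (l : Fin χ → ℝ) (f : St d → ℝ) : Prop :=
  ∀ x x' y, (∀ i, c i ∉ D → x i = x' i) →
    |f (x, y) - f (x', y)| ≤ ∑ k, l k * nr (mask c k (x - x'))

theorem LipW.mono {D : Finset (Fin χ)} {l l' : Fin χ → ℝ} {f : St d → ℝ} (h : LipW c D l f)
    (hl : ∀ k, l k ≤ l' k) : LipW c D l' f := fun x x' y hx => (h x x' y hx).trans
  (Finset.sum_le_sum fun k _ => mul_le_mul_of_nonneg_right (hl k) (nr_nonneg _))

theorem LipW.le_nr {l : Fin χ → ℝ} {f : St d → ℝ} (h : LipW c Finset.univ l f) {M : ℝ}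
    (hl : ∀ k, 0 ≤ l k) (hM : ∀ k, l k ≤ M) (x x' y : Pt d) :
    |f (x, y) - f (x', y)| ≤ χ * M * nr (x - x') := by
  refine (h x x' y fun i hi => absurd (Finset.mem_univ _) hi).trans ?_
  refine (Finset.sum_le_sum fun k _ => mul_le_mul (hM k) (nr_mask_le k _) (nr_nonneg _)
    ((hl k).trans (hM k))).trans (le_of_eq ?_)
  simp; ring

theorem continuous_of_nr {h : Pt d → ℝ} {L : ℝ} (hL : ∀ x z, |h x - h z| ≤ L * nr (x - z)) :
    Continuous h := by
  refine continuous_iff_continuousAt.2 fun x₀ => tendsto_iff_norm_sub_tendsto_zero.2 ?_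
  refine squeeze_zero (fun x => norm_nonneg _) (fun x => (norm_eq_abs _).trans_le (hL x x₀)) ?_
  have : Continuous fun x : Pt d => L * nr (x - x₀) := by fun_prop
  simpa [nr_zero] using this.tendsto x₀

/-- One exact block update. -/
theorem LipW.step (hV : Cls c V) (ha : 0 < a) {D : Finset (Fin χ)} {l : Fin χ → ℝ} {f : St d → ℝ}
    (hf : LipW c D l f) (hm : Measurable f) (hb : ∀ p, |f p| ≤ 1) (k : Fin χ) {S : ℝ} (hS0 : 0 ≤ S)
    (hS : ∀ x y U, SC (1 + a) U →
      ∫ z, (f (merge c k x z, y) - ∫ w, f (merge c k x w, y) ∂law U) ^ 2 ∂law U ≤ S ^ 2) :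
    LipW c (insert k D) (fun j => if j = k then 0 else l j + S / (2 * √(1 + a)))
      (blockOp a V c k f) := by
  intro x x' y hx
  set Δ := x - x'
  set U₀ := WC a V c k (x, y)
  set U₁ := WC a V c k (x', y)
  have h₀ : SC (1 + a) U₀ := hV.sc_WC ha k _
  have h₁ : SC (1 + a) U₁ := hV.sc_WC ha k _
  have := h₀.isProb
  have := h₁.isProb
  set δ := nr (merge c k Δ 0) / 2
  have hg : ∀ z z', |(U₁ z - U₀ z) - (U₁ z' - U₀ z')| ≤ δ * nr (z - z') := by
    intro z z'
    set u := merge c k (x' - x) 0
    set v := mask c k (z - z')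
    have huv : ∀ i, u i * v i = 0 := fun i => by
      simp only [u, v, merge, mask]; split_ifs <;> simp
    obtain ⟨ξ, hξ⟩ := hV.W_mixed (a := a) y (merge c k x z') u v huv
    have e1 : merge c k x z' + u = merge c k x' z' := by
      funext i; simp only [u, merge, Pi.add_apply, Pi.sub_apply, Pi.zero_apply]; split_ifs <;> ring
    have e2 : merge c k x' z' + v = merge c k x' z := by
      funext i; simp only [v, merge, mask, Pi.add_apply, Pi.sub_apply]; split_ifs <;> ring
    have e3 : merge c k x z' + v = merge c k x z := by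
      funext i; simp only [v, merge, mask, Pi.add_apply, Pi.sub_apply]; split_ifs <;> ring
    rw [e1, e2, e3] at hξ
    have e4 : nr u = nr (merge c k Δ 0) := by
      rw [show u = merge c k 0 0 - merge c k Δ 0 by
        funext i; simp only [u, Δ, merge, Pi.sub_apply, Pi.zero_apply]; split_ifs <;> ring,
        nr_sub_comm, merge_sub, sub_zero, sub_zero]
    calc |(U₁ z - U₀ z) - (U₁ z' - U₀ z')| = |fderiv ℝ (fderiv ℝ V) ξ u v| := by
          rw [← hξ]; simp only [U₀, U₁, WC]; congr 1; ring
      _ ≤ nr u * nr v / 2 := hV.hess_le ξ u v huv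
      _ ≤ δ * nr (z - z') := by
          rw [e4, mul_div_right_comm]
          exact mul_le_mul_of_nonneg_left (nr_mask_le k _) (by positivity [nr_nonneg (merge c k Δ 0)])
  have hmz : ∀ x, Measurable fun z => f (merge c k x z, y) := fun x => hm.comp
    (((continuous_merge k).comp (Continuous.prodMk_right x)).measurable.prodMk measurable_const)
  have hp := perturb h₀ h₁ (by linarith) (by positivity [nr_nonneg (merge c k Δ 0)]) hg
    (hmz x) (fun z => hb _) hS0 (fun U hU => hS x y U hU)
  set e := ∑ j, l j * nr (mask c j (merge c k Δ 0))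
  have hfe : ∀ z, |f (merge c k x z, y) - f (merge c k x' z, y)| ≤ e := fun z => by
    refine (hf _ _ y fun i hi => ?_).trans (le_of_eq (by rw [merge_sub, sub_self]))
    by_cases h : c i = k
    · simp [merge, h]
    · simp [merge, h, hx i (by simp [h, hi])]
  have hint : ∀ x, Integrable (fun z => f (merge c k x z, y)) (law U₁) := fun x =>
    (integrable_const (1 : ℝ)).mono' (hmz x).aestronglyMeasurable
      (ae_of_all _ fun z => by rw [norm_eq_abs]; exact hb _)
  have h2 : |∫ z, f (merge c k x z, y) ∂law U₁ - ∫ z, f (merge c k x' z, y) ∂law U₁| ≤ e := by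
    rw [← integral_sub (hint x) (hint x'), ← norm_eq_abs]
    exact (norm_integral_le_of_norm_le_const (ae_of_all _ fun z => by
      rw [norm_eq_abs]; exact hfe z)).trans (by simp)
  refine (abs_sub_le _ (∫ z, f (merge c k x z, y) ∂law U₁) _).trans ?_
  rw [abs_sub_comm] at hp
  refine (add_le_add hp h2).trans ?_
  have h3 := nr_off_le (c := c) k Δ
  have e5 : e = ∑ j ∈ Finset.univ.erase k, l j * nr (mask c j Δ) := by
    simp only [e, mask_merge]
    rw [← Finset.sum_erase_add _ _ (Finset.mem_univ k)]
    simp only [if_true, nr_zero, mul_zero, add_zero]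
    exact Finset.sum_congr rfl fun j hj => by rw [if_neg (Finset.ne_of_mem_erase hj)]
  rw [e5, ← Finset.sum_erase_add _ _ (Finset.mem_univ k)]
  simp only [if_true, zero_mul, add_zero]
  rw [Finset.sum_congr rfl fun j hj => show (if j = k then 0 else l j + S / (2 * √(1 + a))) *
    nr (mask c j Δ) = l j * nr (mask c j Δ) + S / (2 * √(1 + a)) * nr (mask c j Δ) by
      rw [if_neg (Finset.ne_of_mem_erase hj), add_mul],
    Finset.sum_add_distrib, ← Finset.mul_sum]
  have h4 := mul_le_mul_of_nonneg_left h3 (show 0 ≤ S / (2 * √(1 + a)) by positivity)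
  have h5 : S * (δ / √(1 + a)) = S / (2 * √(1 + a)) * nr (merge c k Δ 0) := by
    simp only [δ]; field_simp
  linarith

/-- Block updates of a bounded function. -/
theorem LipW.of_bounded (hV : Cls c V) (ha : 0 < a) {f : St d → ℝ} (hm : Measurable f)
    (hb : ∀ p, |f p| ≤ 1) : ∀ l : List (Fin χ),
      LipW c l.toFinset (fun _ => (l.length : ℝ) / (2 * √(1 + a)))
        (l.foldr (blockOp a V c) f) := by
  intro l
  induction l with
  | nil =>
    intro x x' y hx
    rw [show x = x' from funext fun i => hx i (by simp)]; simp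
  | cons k l ih =>
    have hg := (Good.foldr (hV.good_block ha) l).bdd f 1 hm hb
    rw [List.toFinset_cons, List.foldr_cons]
    refine (ih.step hV ha hg.1 hg.2 k zero_le_one fun x y U hU => ?_).mono fun j => ?_
    · exact hU.variance_le_sq (hg.1.comp
        (((continuous_merge k).comp (Continuous.prodMk_right x)).measurable.prodMk
          measurable_const)) fun z => hg.2 _
    · split_ifs
      · positivity
      · rw [← add_div, List.length_cons]; push_cast; exact le_rfl

/-- Block updates of a Lipschitz function. -/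
theorem LipW.of_lip (hV : Cls c V) (ha : 0 < a) {f : St d → ℝ} (hm : Measurable f)
    (hb : ∀ p, |f p| ≤ 1) {M : ℝ} (hM : 0 ≤ M) (hf : LipW c Finset.univ (fun _ => M) f) :
    ∀ l : List (Fin χ), ∃ w : Fin χ → ℝ, (∀ k, 0 ≤ w k) ∧
      (∀ k, w k ≤ M * (1 + 1 / (2 * (1 + a))) ^ l.length) ∧
      (∀ k ∈ l, w k ≤ l.length * (1 / (2 * (1 + a))) * (M * (1 + 1 / (2 * (1 + a))) ^ l.length)) ∧
      LipW c Finset.univ w (l.foldr (blockOp a V c) f) := by
  intro l
  induction l with
  | nil => exact ⟨fun _ => M, fun _ => hM, fun _ => by simp, by simp, by simpa using hf⟩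
  | cons k l ih =>
    obtain ⟨w, hw0, hwM, hwl, hw⟩ := ih
    set g := l.foldr (blockOp a V c) f
    have hg := (Good.foldr (hV.good_block ha) l).bdd f 1 hm hb
    set ε := 1 / (2 * (1 + a))
    have hε : 0 ≤ ε := by positivity
    have hlip : ∀ x y z z', |g (merge c k x z, y) - g (merge c k x z', y)|
        ≤ w k * nr (z - z') := fun x y z z' => by
      refine (hw _ _ y fun i hi => absurd (Finset.mem_univ _) hi).trans ?_
      rw [merge_sub, sub_self, ← Finset.sum_erase_add _ _ (Finset.mem_univ k),
        Finset.sum_eq_zero fun j hj => ?_, zero_add]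
      · refine mul_le_mul_of_nonneg_left (le_trans (le_of_eq ?_) (nr_mask_le (c := c) k (z - z'))) (hw0 k)
        congr 1; funext i; simp only [mask, merge]; split_ifs <;> rfl
      · rw [show mask c j (merge c k 0 (z - z')) = 0 by
          funext i; simp only [mask, merge]
          split_ifs with h1 h2
          · exact absurd (h1.symm.trans h2) (Finset.ne_of_mem_erase hj)
          all_goals rfl, nr_zero, mul_zero]
    have h := hw.step hV ha hg.1 hg.2 k (S := w k / √(1 + a)) (div_nonneg (hw0 k) (sqrt_nonneg _))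
      fun x y U hU => by
        rw [div_pow, sq_sqrt (by linarith)]
        exact hU.variance_le (by linarith) (continuous_of_nr (hlip x y)) (fun z => hg.2 _) (hlip x y)
    rw [Finset.insert_eq_of_mem (Finset.mem_univ k)] at h
    refine ⟨_, fun j => ?_, fun j => ?_, fun j hj => ?_, by simpa using h⟩
    · split_ifs
      · exact le_rfl
      · exact add_nonneg (hw0 j) (div_nonneg (div_nonneg (hw0 k) (sqrt_nonneg _)) (by positivity))
    all_goals
      have hs : w k / √(1 + a) / (2 * √(1 + a)) = ε * w k := by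
        simp only [ε]; field_simp
        rw [sq_sqrt (by linarith : (0 : ℝ) ≤ 1 + a)]
      have hpow : 0 ≤ M * (1 + ε) ^ l.length := by positivity
      have hk := mul_le_mul_of_nonneg_left (hwM k) hε
      rw [List.length_cons, pow_succ]
    · split_ifs with hjk
      · positivity
      · rw [hs]; nlinarith [hwM j]
    · split_ifs with hjk
      · positivity
      · rw [hs]
        have hj' := hwl j ((List.mem_cons.1 hj).resolve_left hjk)
        push_cast
        nlinarith [mul_nonneg (mul_nonneg (Nat.cast_nonneg (α := ℝ) l.length) hε)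
          (mul_nonneg hpow hε), mul_nonneg hε (mul_nonneg hpow hε)]

end

end Vale.Agent.P347.Colour
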