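import Mathlib
import Vale.Agent.P047.Disproof.Prekopa
import Vale.Agent.P347.Colour.Defs

/-!
# P347: variance, perturbation and moments for strongly log-concave laws

Everything comes from the midpoint Prékopa–Leindler inequality.
-/

namespace Vale.Agent.P347.Colour

open MeasureTheory Set Real Filter
open scoped ENNReal Topology

noncomputable section

variable {κ : Type*} [Fintype κ]

/-- The Euclidean norm. -/
def nr (x : κ → ℝ) : ℝ := ‖(WithLp.toLp 2 x : EuclideanSpace ℝ κ)‖

theorem nr_nonneg (x : κ → ℝ) : 0 ≤ nr x := norm_nonneg _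

theorem nr_sq (x : κ → ℝ) : nr x ^ 2 = ∑ i, x i ^ 2 := by
  rw [nr, EuclideanSpace.norm_sq_eq]; simp

theorem nr_add (x y : κ → ℝ) : nr (x + y) ≤ nr x + nr y := by
  simp only [nr, WithLp.toLp_add]; exact norm_add_le _ _

theorem nr_smul (s : ℝ) (x : κ → ℝ) : nr (s • x) = |s| * nr x := by
  simp only [nr, WithLp.toLp_smul, norm_smul, norm_eq_abs]

theorem nr_sub_comm (x y : κ → ℝ) : nr (x - y) = nr (y - x) := by
  simp only [nr, WithLp.toLp_sub]; exact norm_sub_rev _ _

theorem nr_sub_le (x y : κ → ℝ) : nr (x - y) ≤ nr x + nr y := by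
  simp only [nr, WithLp.toLp_sub]; exact norm_sub_le _ _

theorem nr_zero : nr (0 : κ → ℝ) = 0 := by simp [nr]

@[fun_prop]
theorem continuous_nr : Continuous (nr : (κ → ℝ) → ℝ) := by unfold nr; fun_prop

theorem abs_apply_le_nr (x : κ → ℝ) (i : κ) : |x i| ≤ nr x :=
  abs_le_of_sq_le_sq (by
    rw [nr_sq]; exact Finset.single_le_sum (fun j _ => sq_nonneg (x j)) (Finset.mem_univ i))
    (nr_nonneg x)

/-- `m`-strong convexity with quadratic growth. -/
structure SC (m : ℝ) (W : (κ → ℝ) → ℝ) : Prop where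
  cont : Continuous W
  conv : ∀ x z (s : ℝ), 0 ≤ s → s ≤ 1 →
    W (s • x + (1 - s) • z) ≤ s * W x + (1 - s) * W z - m / 2 * s * (1 - s) * nr (x - z) ^ 2
  grow : ∃ A b : ℝ, 0 < b ∧ ∀ x, A + b * nr x ^ 2 ≤ W x

variable {m : ℝ} {W : (κ → ℝ) → ℝ}

theorem integrable_gauss {b : ℝ} (hb : 0 < b) :
    Integrable fun x : κ → ℝ => exp (-b * nr x ^ 2) := by
  simp only [nr_sq, Finset.mul_sum, exp_sum]
  exact Integrable.fintype_prod fun _ => integrable_exp_neg_mul_sq hb

theorem exists_grow_add (h : ∃ A b : ℝ, 0 < b ∧ ∀ x, A + b * nr x ^ 2 ≤ W x) {g : (κ → ℝ) → ℝ}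
    {c₀ c₁ : ℝ} (hg : ∀ x, -(c₀ + c₁ * nr x) ≤ g x) :
    ∃ A b : ℝ, 0 < b ∧ ∀ x, A + b * nr x ^ 2 ≤ W x + g x := by
  obtain ⟨A, b, hb, h⟩ := h
  refine ⟨A - c₀ - c₁ ^ 2 / (2 * b), b / 2, by positivity, fun x => ?_⟩
  have e : c₁ * nr x ≤ b / 2 * nr x ^ 2 + c₁ ^ 2 / (2 * b) := by
    have h2 : 0 ≤ (b * nr x - c₁) ^ 2 / (2 * b) := by positivity
    have h3 : (b * nr x - c₁) ^ 2 / (2 * b)
        = b / 2 * nr x ^ 2 + c₁ ^ 2 / (2 * b) - c₁ * nr x := by field_simp; ring
    linarith
  linarith [h x, hg x]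

theorem integrable_mul_exp_of_grow (hc : Continuous W)
    (h : ∃ A b : ℝ, 0 < b ∧ ∀ x, A + b * nr x ^ 2 ≤ W x) {f : (κ → ℝ) → ℝ}
    (hf : Measurable f) {c₀ c₁ : ℝ} (hb : ∀ x, |f x| ≤ c₀ + c₁ * nr x ^ 2) :
    Integrable fun x => f x * exp (-W x) := by
  obtain ⟨A, b, hbp, h⟩ := h
  refine ((integrable_gauss (half_pos hbp)).const_mul
    (exp (-A) * (|c₀| + |c₁| * (2 / b)))).mono' (by fun_prop) (ae_of_all _ fun x => ?_)
  rw [norm_eq_abs, abs_mul, abs_of_pos (exp_pos _)]
  have h1 : exp (-W x) ≤ exp (-A) * exp (-b * nr x ^ 2) := by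
    rw [← exp_add]; exact exp_le_exp.2 (by linarith [h x])
  set u := b / 2 * nr x ^ 2 with hu
  have hu0 : 0 ≤ u := by positivity
  have h2 : c₀ + c₁ * nr x ^ 2 ≤ (|c₀| + |c₁| * (2 / b)) * exp u := by
    have e1 : (1 : ℝ) ≤ exp u := one_le_exp hu0
    have e2 : nr x ^ 2 ≤ 2 / b * exp u := by
      rw [show nr x ^ 2 = 2 / b * u by rw [hu]; field_simp]
      exact mul_le_mul_of_nonneg_left (by linarith [add_one_le_exp u]) (by positivity)
    nlinarith [le_abs_self c₀, le_abs_self c₁, abs_nonneg c₀, abs_nonneg c₁,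
      mul_le_mul_of_nonneg_left e2 (abs_nonneg c₁),
      mul_le_mul_of_nonneg_left e1 (abs_nonneg c₀), sq_nonneg (nr x)]
  refine (mul_le_mul ((hb x).trans h2) h1 (exp_pos _).le (by positivity)).trans (le_of_eq ?_)
  have e3 : exp u * exp (-b * nr x ^ 2) = exp (-(b / 2) * nr x ^ 2) := by
    rw [← exp_add, hu]; congr 1; ring
  rw [← e3]; ring

theorem integrable_exp_of_grow (hc : Continuous W)
    (h : ∃ A b : ℝ, 0 < b ∧ ∀ x, A + b * nr x ^ 2 ≤ W x) : Integrable fun x => exp (-W x) := by
  simpa using integrable_mul_exp_of_grow hc h (f := fun _ => 1) (c₀ := 1) (c₁ := 0)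
    measurable_const (fun x => by simp)

theorem SC.integrable (h : SC m W) : Integrable fun x => exp (-W x) :=
  integrable_exp_of_grow h.cont h.grow

theorem SC.integrable_mul (h : SC m W) {f : (κ → ℝ) → ℝ} (hf : Measurable f) {B : ℝ}
    (hb : ∀ x, |f x| ≤ B) : Integrable fun x => f x * exp (-W x) :=
  integrable_mul_exp_of_grow h.cont h.grow hf (c₀ := B) (c₁ := 0) (by simpa using hb)

theorem SC.pos (h : SC m W) : 0 < ∫ x, exp (-W x) := integral_exp_pos h.integrable

theorem SC.mass (h : SC m W) :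
    (volume.withDensity fun x => ENNReal.ofReal (exp (-W x))) univ
      = ENNReal.ofReal (∫ x, exp (-W x)) := by
  rw [withDensity_apply _ MeasurableSet.univ, Measure.restrict_univ,
    ofReal_integral_eq_lintegral_ofReal h.integrable (ae_of_all _ fun x => (exp_pos _).le)]

theorem SC.isProb (h : SC m W) : IsProbabilityMeasure (law W) := by
  constructor
  rw [law, Measure.smul_apply, h.mass, smul_eq_mul]
  exact ENNReal.inv_mul_cancel (ENNReal.ofReal_pos.2 h.pos).ne' ENNReal.ofReal_ne_top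

theorem SC.integral_law (h : SC m W) (f : (κ → ℝ) → ℝ) :
    ∫ x, f x ∂law W = (∫ x, f x * exp (-W x)) / ∫ x, exp (-W x) := by
  have := h.cont
  rw [law, integral_smul_measure, h.mass,
    integral_withDensity_eq_integral_toReal_smul (by fun_prop)
      (ae_of_all _ fun x => ENNReal.ofReal_lt_top)]
  simp only [ENNReal.toReal_ofReal (exp_pos _).le, ENNReal.toReal_inv, smul_eq_mul]
  rw [ENNReal.toReal_ofReal h.pos.le, div_eq_inv_mul]
  simp only [mul_comm (exp _)]

/-- Prékopa–Leindler for exponentials. -/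
theorem prekopa_exp {F G H : (κ → ℝ) → ℝ} (hFi : Integrable fun x => exp (-F x))
    (hGi : Integrable fun x => exp (-G x)) (hHi : Integrable fun x => exp (-H x))
    (hF : Continuous F) (hG : Continuous G) (hH : Continuous H) {e : ℝ}
    (hmid : ∀ x z, 2 * H (fun i => (x i + z i) / 2) - e ≤ F x + G z) :
    (∫ x, exp (-F x)) * ∫ x, exp (-G x) ≤ exp e * (∫ x, exp (-H x)) ^ 2 := by
  have key := Vale.Agent.P047.Disproof.prekopa_pi
    (f := fun x : κ → ℝ => ENNReal.ofReal (exp (-F x))) (g := fun x => ENNReal.ofReal (exp (-G x)))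
    (h := fun x => ENNReal.ofReal (exp (e / 2) * exp (-H x))) (by fun_prop) (by fun_prop)
    (by fun_prop) (fun x z => by
      rw [← ENNReal.ofReal_mul (exp_pos _).le, ← ENNReal.ofReal_pow (by positivity), ← exp_add,
        ← exp_add, ← exp_nat_mul]
      refine ENNReal.ofReal_le_ofReal (exp_le_exp.2 ?_)
      push_cast
      linarith [hmid x z])
  rw [← ofReal_integral_eq_lintegral_ofReal hFi (ae_of_all _ fun x => (exp_pos _).le),
    ← ofReal_integral_eq_lintegral_ofReal hGi (ae_of_all _ fun x => (exp_pos _).le),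
    ← ofReal_integral_eq_lintegral_ofReal (hHi.const_mul _)
      (ae_of_all _ fun x => by positivity),
    ← ENNReal.ofReal_mul (integral_nonneg fun x => (exp_pos _).le),
    ← ENNReal.ofReal_pow (integral_nonneg fun x => by positivity),
    ENNReal.ofReal_le_ofReal_iff (by positivity), integral_const_mul, mul_pow, ← exp_nat_mul] at key
  exact key.trans (le_of_eq (by push_cast; ring_nf))

theorem SC.mid (h : SC m W) (x z : κ → ℝ) :
    W (fun i => (x i + z i) / 2) ≤ (W x + W z) / 2 - m / 8 * nr (x - z) ^ 2 := by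
  have h1 := h.conv x z (1 / 2) (by norm_num) (by norm_num)
  have e : (1 / 2 : ℝ) • x + (1 - 1 / 2 : ℝ) • z = fun i => (x i + z i) / 2 := by
    funext i; simp; ring
  rw [e] at h1; linarith

theorem nr_sub_mid (x z : κ → ℝ) : nr (x - fun i => (x i + z i) / 2) = nr (x - z) / 2 := by
  rw [show (x - fun i => (x i + z i) / 2) = (1 / 2 : ℝ) • (x - z) by funext i; simp; ring, nr_smul]
  rw [abs_of_pos (by norm_num : (0 : ℝ) < 1 / 2)]; ring

theorem quad_le {m δ r : ℝ} (hm : 0 < m) : δ * r - m * r ^ 2 / 4 ≤ δ ^ 2 / m := by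
  rw [le_div_iff₀ hm]; nlinarith [sq_nonneg (δ - m * r / 2)]

/-- A Lipschitz function under a strongly log-concave law has small variance. -/
theorem SC.variance_le (h : SC m W) (hm : 0 < m) {f : (κ → ℝ) → ℝ} (hf : Continuous f) {B L : ℝ}
    (hB : ∀ x, |f x| ≤ B) (hL : ∀ x z, |f x - f z| ≤ L * nr (x - z)) :
    ∫ x, (f x - ∫ z, f z ∂law W) ^ 2 ∂law W ≤ L ^ 2 / m := by
  have : IsProbabilityMeasure (law W) := h.isProb
  set I := ∫ z, f z ∂law W
  set ψ := fun x => f x - I
  have hψc : Continuous ψ := by fun_prop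
  set B' := B + |I|
  have hψb : ∀ x, |ψ x| ≤ B' := fun x => (abs_sub _ _).trans (by linarith [hB x])
  have hint : ∀ g : (κ → ℝ) → ℝ, Continuous g → (∃ K, ∀ x, |g x| ≤ K) → Integrable g (law W) :=
    fun g hg ⟨K, hK⟩ => (integrable_const K).mono' hg.aestronglyMeasurable
      (ae_of_all _ fun x => by rw [norm_eq_abs]; exact hK x)
  have hmean : ∫ x, ψ x ∂law W = 0 := by
    rw [integral_sub (hint f hf ⟨B, hB⟩) (integrable_const _), integral_const, probReal_univ,
      one_smul, sub_self]
  set v := ∫ x, ψ x ^ 2 ∂law W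
  have key : ∀ t : ℝ, 0 < t → t ^ 2 * v ≤ exp (t ^ 2 * L ^ 2 / m) - 1 := by
    intro t ht
    have hgr : ∀ s : ℝ, |s| ≤ t → ∀ x, -(t * B' + 0 * nr x) ≤ s * ψ x := fun s hs x => by
      have := (abs_mul s (ψ x)).trans_le (mul_le_mul hs (hψb x) (abs_nonneg _) ht.le)
      linarith [(abs_le.1 this).1]
    have hc := h.cont
    have hI : ∀ s : ℝ, |s| ≤ t → Integrable fun x => exp (-(W x + s * ψ x)) := fun s hs =>
      integrable_exp_of_grow (by fun_prop) (exists_grow_add h.grow (hgr s hs))
    have hPL := prekopa_exp (H := W) (e := t ^ 2 * L ^ 2 / m) (hI t (abs_of_pos ht).le)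
      (hI (-t) (by rw [abs_neg, abs_of_pos ht])) h.integrable (by fun_prop) (by fun_prop) h.cont
      (fun x z => by
        have h1 := h.mid x z
        have h2 : |ψ x - ψ z| ≤ L * nr (x - z) := by simpa [ψ] using hL x z
        have h3 := quad_le (δ := t * L) (r := nr (x - z)) hm
        have h4 := mul_le_mul_of_nonneg_left ((abs_le.1 h2).1) ht.le
        rw [mul_pow] at h3
        linarith)
    have hA : ∀ s : ℝ, ∫ x, exp (-(W x + s * ψ x))
        = (∫ x, exp (-(s * ψ x)) ∂law W) * ∫ x, exp (-W x) := by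
      intro s
      rw [h.integral_law, div_mul_cancel₀ _ h.pos.ne']
      congr 1; funext x; rw [← exp_add]; ring_nf
    rw [hA, hA] at hPL
    simp only [neg_mul, neg_neg] at hPL
    set A := ∫ x, exp (-(t * ψ x)) ∂law W
    set A' := ∫ x, exp (t * ψ x) ∂law W
    have hbd : ∀ s : ℝ, ∃ K, ∀ x, |exp (s * ψ x)| ≤ K := fun s => ⟨exp (|s| * B'), fun x => by
      rw [abs_of_pos (exp_pos _)]
      exact exp_le_exp.2 ((le_abs_self _).trans ((abs_mul _ _).trans_le
        (mul_le_mul_of_nonneg_left (hψb x) (abs_nonneg _))))⟩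
    have hi1 : Integrable (fun x => exp (-(t * ψ x))) (law W) :=
      hint _ (by fun_prop) (by simpa [neg_mul] using hbd (-t))
    have hi2 : Integrable (fun x => exp (t * ψ x)) (law W) := hint _ (by fun_prop) (hbd t)
    have hiψ : Integrable ψ (law W) := hint ψ hψc ⟨B', hψb⟩
    have hA1 : 1 ≤ A := by
      have : ∫ x, (1 - t * ψ x) ∂law W ≤ A := integral_mono ((integrable_const _).sub
        (hiψ.const_mul t)) hi1 fun x => by linarith [add_one_le_exp (-(t * ψ x))]
      rwa [integral_sub (integrable_const _) (hiψ.const_mul t), integral_const_mul, hmean,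
        integral_const, probReal_univ, one_smul, mul_zero, sub_zero] at this
    have hA1' : 1 ≤ A' := by
      have : ∫ x, (1 + t * ψ x) ∂law W ≤ A' := integral_mono ((integrable_const _).add
        (hiψ.const_mul t)) hi2 fun x => by linarith [add_one_le_exp (t * ψ x)]
      rwa [integral_add (integrable_const _) (hiψ.const_mul t), integral_const_mul, hmean,
        integral_const, probReal_univ, one_smul, mul_zero, add_zero] at this
    have hsum : 2 + t ^ 2 * v ≤ A + A' := by
      have hi : Integrable (fun x => t ^ 2 * ψ x ^ 2) (law W) :=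
        (hint _ (by fun_prop) ⟨B' ^ 2, fun x => by
          rw [abs_pow]; exact pow_le_pow_left₀ (abs_nonneg _) (hψb x) 2⟩).const_mul _
      rw [← integral_add hi1 hi2]
      refine le_trans (le_of_eq ?_) (integral_mono ((integrable_const 2).add hi) (hi1.add hi2)
        fun x => ?_)
      · rw [Pi.add_def, integral_add (integrable_const 2) hi, integral_const, probReal_univ,
          one_smul, integral_const_mul]
      · simp only [Pi.add_apply]
        have h1 : 1 + (t * ψ x) ^ 2 / 2 ≤ cosh (t * ψ x) := by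
          set u := t * ψ x / 2
          have e : t * ψ x = 2 * u := by simp only [u]; ring
          rw [e, cosh_two_mul, cosh_sq]
          have hu2 : u ^ 2 ≤ sinh u ^ 2 := by
            have := self_le_sinh_iff.2 (abs_nonneg u)
            rw [← abs_sinh] at this
            exact sq_le_sq.2 this
          nlinarith
        rw [cosh_eq, mul_pow] at h1
        linarith
    have hZ := h.pos
    have hAA : A * A' ≤ exp (t ^ 2 * L ^ 2 / m) :=
      le_of_mul_le_mul_right (a := (∫ x, exp (-W x)) ^ 2) (by linarith [hPL]) (by positivity)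
    nlinarith [mul_nonneg (sub_nonneg.2 hA1) (sub_nonneg.2 hA1')]
  rcases le_or_gt v (L ^ 2 / m) with hv | hv
  · exact hv
  exfalso
  set c := L ^ 2 / m
  have hc0 : 0 ≤ c := by positivity
  obtain ⟨u, hu0, hu⟩ : ∃ u : ℝ, 0 < u ∧ c * exp (u * c) < v := by
    have ht : Tendsto (fun u : ℝ => c * exp (u * c)) (𝓝[>] 0) (𝓝 c) := by
      have : Continuous fun u : ℝ => c * exp (u * c) := by fun_prop
      simpa using (this.tendsto 0).mono_left nhdsWithin_le_nhds
    exact ((ht.eventually (gt_mem_nhds hv)).and self_mem_nhdsWithin).exists.imp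
      fun u hu => ⟨hu.2, hu.1⟩
  have h1 := key (√u) (sqrt_pos.2 hu0)
  rw [sq_sqrt hu0.le, mul_div_assoc] at h1
  have h2 : exp (u * c) - 1 ≤ u * c * exp (u * c) := by
    have := mul_le_mul_of_nonneg_right (add_one_le_exp (-(u * c))) (exp_pos (u * c)).le
    rw [← exp_add, neg_add_cancel, exp_zero] at this
    nlinarith
  nlinarith [mul_lt_mul_of_pos_left hu hu0]

/-- A variance bound valid for every bounded function. -/
theorem SC.variance_le_sq (h : SC m W) {f : (κ → ℝ) → ℝ} (hf : Measurable f) {B : ℝ}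
    (hB : ∀ x, |f x| ≤ B) : ∫ x, (f x - ∫ z, f z ∂law W) ^ 2 ∂law W ≤ B ^ 2 := by
  have : IsProbabilityMeasure (law W) := h.isProb
  have hi : Integrable f (law W) := (integrable_const B).mono' hf.aestronglyMeasurable
    (ae_of_all _ fun x => by rw [norm_eq_abs]; exact hB x)
  have hi2 : Integrable (fun x => f x ^ 2) (law W) :=
    (integrable_const (B ^ 2)).mono' (hf.pow_const 2).aestronglyMeasurable (ae_of_all _ fun x => by
      rw [norm_eq_abs, abs_pow]; exact pow_le_pow_left₀ (abs_nonneg _) (hB x) 2)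
  set I := ∫ z, f z ∂law W
  have e : ∫ x, (f x - I) ^ 2 ∂law W = ∫ x, f x ^ 2 ∂law W - I ^ 2 := by
    rw [show (fun x => (f x - I) ^ 2) = fun x => f x ^ 2 - (2 * I * f x - I ^ 2) by funext x; ring]
    have hj : Integrable (fun x => 2 * I * f x) (law W) := hi.const_mul _
    have hj' : Integrable (fun x => 2 * I * f x - I ^ 2) (law W) := hj.sub (integrable_const _)
    rw [integral_sub hi2 hj', integral_sub hj (integrable_const _),
      integral_const_mul, integral_const, probReal_univ, one_smul]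
    ring
  rw [e]
  have : ∫ x, f x ^ 2 ∂law W ≤ B ^ 2 := by
    refine (integral_mono (g := fun _ => B ^ 2) hi2 (integrable_const _) fun x => ?_).trans (by simp)
    have := pow_le_pow_left₀ (abs_nonneg _) (hB x) 2
    rwa [sq_abs] at this
  nlinarith [sq_nonneg I]

theorem abs_integral_mul_le {μ : Measure (κ → ℝ)} {f g : (κ → ℝ) → ℝ} {P Q : ℝ}
    (hf2 : Integrable (fun x => f x ^ 2) μ) (hg2 : Integrable (fun x => g x ^ 2) μ)
    (hP : ∫ x, f x ^ 2 ∂μ ≤ P ^ 2) (hQ : ∫ x, g x ^ 2 ∂μ ≤ Q ^ 2) (hP0 : 0 ≤ P) (hQ0 : 0 ≤ Q) :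
    |∫ x, f x * g x ∂μ| ≤ P * Q := by
  refine le_of_forall_pos_le_add fun ε hε => ?_
  have hP' : 0 < P + min 1 (ε / (P + Q + 1)) := by positivity
  set δ := min 1 (ε / (P + Q + 1))
  set s := (Q + δ) / (P + δ)
  have hs : 0 < s := by positivity
  refine abs_integral_le_integral_abs.trans ((integral_mono_of_nonneg (ae_of_all _ fun x =>
    abs_nonneg _) ((hf2.const_mul (s / 2)).add (hg2.const_mul (1 / (2 * s))))
    (ae_of_all _ fun x => ?_)).trans ?_)
  · simp only [Pi.add_apply, abs_mul]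
    have h0 : 0 ≤ (s * |f x| - |g x|) ^ 2 / (2 * s) := by positivity
    have h1 : (s * |f x| - |g x|) ^ 2 / (2 * s)
        = s / 2 * f x ^ 2 + 1 / (2 * s) * g x ^ 2 - |f x| * |g x| := by
      rw [sub_sq, mul_pow, sq_abs, sq_abs]; field_simp; ring
    linarith
  · simp only [Pi.add_apply]
    rw [integral_add (hf2.const_mul _) (hg2.const_mul _), integral_const_mul, integral_const_mul]
    have hδ : 0 < δ := lt_min one_pos (by positivity)
    refine (add_le_add (mul_le_mul_of_nonneg_left
      (hP.trans (pow_le_pow_left₀ hP0 (le_add_of_nonneg_right hδ.le) 2)) (by positivity))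
      (mul_le_mul_of_nonneg_left (hQ.trans (pow_le_pow_left₀ hQ0 (le_add_of_nonneg_right hδ.le) 2))
      (by positivity))).trans ?_
    have e : s / 2 * (P + δ) ^ 2 + 1 / (2 * s) * (Q + δ) ^ 2 = (P + δ) * (Q + δ) := by
      simp only [s]; field_simp; ring
    rw [e]
    have h2 : δ * (P + Q + 1) ≤ ε := by
      rw [← le_div_iff₀ (by positivity)]; exact min_le_right _ _
    nlinarith [min_le_left 1 (ε / (P + Q + 1))]

/-- Lipschitz perturbations of a strongly log-concave law move integrals little. -/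
theorem perturb {W₀ W₁ : (κ → ℝ) → ℝ} (h₀ : SC m W₀) (h₁ : SC m W₁) (hm : 0 < m) {δ : ℝ}
    (hδ : 0 ≤ δ) (hg : ∀ x z, |(W₁ x - W₀ x) - (W₁ z - W₀ z)| ≤ δ * nr (x - z))
    {f : (κ → ℝ) → ℝ} (hf : Measurable f) {B S : ℝ} (hB : ∀ x, |f x| ≤ B) (hS0 : 0 ≤ S)
    (hS : ∀ W : (κ → ℝ) → ℝ, SC m W → ∫ x, (f x - ∫ z, f z ∂law W) ^ 2 ∂law W ≤ S ^ 2) :
    |∫ x, f x ∂law W₁ - ∫ x, f x ∂law W₀| ≤ S * (δ / √m) := by
  set g := fun x => W₁ x - W₀ x
  have hgc : Continuous g := h₁.cont.sub h₀.cont
  set Wt : ℝ → (κ → ℝ) → ℝ := fun t x => W₀ x + t * g x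
  have hgrow : ∀ (W : (κ → ℝ) → ℝ), (∃ A b : ℝ, 0 < b ∧ ∀ x, A + b * nr x ^ 2 ≤ W x) →
      ∀ s : ℝ, ∃ A b : ℝ, 0 < b ∧ ∀ x, A + b * nr x ^ 2 ≤ W x + s * g x := fun W hW s =>
    exists_grow_add hW (c₀ := |s| * |g 0|) (c₁ := |s| * δ) fun x => by
      have h1 : |g x| ≤ |g 0| + δ * nr x := by
        have := hg x 0
        rw [sub_zero] at this
        linarith [abs_sub_abs_le_abs_sub (g x) (g 0)]
      have h2 : |s * g x| ≤ |s| * (|g 0| + δ * nr x) := by
        rw [abs_mul]; exact mul_le_mul_of_nonneg_left h1 (abs_nonneg _)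
      linarith [(abs_le.1 h2).1]
  have hSC : ∀ t : ℝ, 0 ≤ t → t ≤ 1 → SC m (Wt t) := fun t ht ht' =>
    ⟨h₀.cont.add (hgc.const_mul t), fun x z s hs hs' => by
      simp only [Wt, g]
      nlinarith [mul_le_mul_of_nonneg_left (h₁.conv x z s hs hs') ht,
        mul_le_mul_of_nonneg_left (h₀.conv x z s hs hs') (sub_nonneg.2 ht')],
      hgrow W₀ h₀.grow t⟩
  have step : ∀ t η : ℝ, 0 ≤ t → 0 ≤ η → t + η ≤ 1 →
      |∫ x, f x ∂law (Wt (t + η)) - ∫ x, f x ∂law (Wt t)|
        ≤ S * (η * δ / √m * exp ((η * δ) ^ 2 / m / 2)) := by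
    intro t η ht hη hte
    have hW := hSC t ht (by linarith)
    have hW' := hSC (t + η) (by linarith) hte
    have : IsProbabilityMeasure (law (Wt t)) := hW.isProb
    set μ := law (Wt t)
    set Z := ∫ x, exp (-Wt t x)
    have hZ : 0 < Z := hW.pos
    set Z' := ∫ x, exp (-Wt (t + η) x)
    have hZ' : 0 < Z' := hW'.pos
    set c := Z / Z'
    set r := fun x => c * exp (-(η * g x))
    have e1 : ∀ x, exp (-(η * g x)) * exp (-Wt t x) = exp (-Wt (t + η) x) := fun x => by
      rw [← exp_add]; simp only [Wt]; ring_nf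
    have hc2 : Continuous fun x => Wt t x + 2 * η * g x := hW.cont.add (hgc.const_mul _)
    have hi2 : Integrable fun x => exp (-(Wt t x + 2 * η * g x)) :=
      integrable_exp_of_grow hc2 (hgrow _ hW.grow _)
    have hPL := prekopa_exp (F := fun x => Wt t x + 2 * η * g x) (G := Wt t) (H := Wt (t + η))
      (e := (η * δ) ^ 2 / m) hi2 hW.integrable hW'.integrable hc2 hW.cont hW'.cont fun x z => by
        have h1 := hW.mid x z
        have h3 := quad_le (δ := η * δ) (r := nr (x - z)) hm
        have h4 := hg x (fun i => (x i + z i) / 2)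
        rw [nr_sub_mid] at h4
        have h5 := mul_le_mul_of_nonneg_left (abs_le.1 h4).1 hη
        simp only [Wt, g] at h1 h5 ⊢
        nlinarith
    have hfi : Integrable f μ := (integrable_const B).mono' hf.aestronglyMeasurable
      (ae_of_all _ fun x => by rw [norm_eq_abs]; exact hB x)
    have hrI : ∫ x, r x ∂μ = 1 := by
      simp only [r, μ, hW.integral_law, mul_assoc, e1, integral_const_mul]
      change Z / Z' * Z' / Z = 1
      field_simp
    have hri : Integrable r μ := Integrable.of_integral_ne_zero (by rw [hrI]; norm_num)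
    have hr2 : ∫ x, r x ^ 2 ∂μ = c ^ 2 * (∫ x, exp (-(Wt t x + 2 * η * g x))) / Z := by
      simp only [μ, hW.integral_law, ← integral_const_mul]
      congr 2
      funext x
      simp only [r, mul_pow, ← exp_nat_mul, mul_assoc, ← exp_add]
      congr 2
      push_cast; ring
    have hr2i : Integrable (fun x => r x ^ 2) μ := by
      refine Integrable.of_integral_ne_zero ?_
      rw [hr2]
      have := integral_exp_pos hi2
      positivity
    have hr2le : ∫ x, r x ^ 2 ∂μ ≤ exp ((η * δ) ^ 2 / m) := by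
      rw [hr2]
      simp only [c]
      rw [div_pow, div_mul_eq_mul_div, div_div, div_le_iff₀ (by positivity)]
      nlinarith [mul_le_mul_of_nonneg_left hPL hZ.le]
    set I := ∫ x, f x ∂μ
    have hψb : ∀ x, |f x - I| ≤ B + |I| := fun x => (abs_sub _ _).trans (by linarith [hB x])
    have hψ2 : Integrable (fun x => (f x - I) ^ 2) μ :=
      (integrable_const ((B + |I|) ^ 2)).mono' ((hf.sub_const I).pow_const 2).aestronglyMeasurable
        (ae_of_all _ fun x => by
          rw [norm_eq_abs, abs_pow]; exact pow_le_pow_left₀ (abs_nonneg _) (hψb x) 2)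
    have hfr : Integrable (fun x => f x * r x) μ := by
      refine (hri.norm.const_mul B).mono' (hfi.aestronglyMeasurable.mul hri.aestronglyMeasurable)
        (ae_of_all _ fun x => ?_)
      rw [norm_mul, norm_eq_abs]
      exact mul_le_mul_of_nonneg_right (hB x) (norm_nonneg _)
    have hnew : ∫ x, f x ∂law (Wt (t + η)) = ∫ x, f x * r x ∂μ := by
      rw [hW'.integral_law, hW.integral_law]
      have : (fun x => f x * r x * exp (-Wt t x)) = fun x => c * (f x * exp (-Wt (t + η) x)) := by
        funext x; rw [← e1]; simp only [r]; ring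
      rw [this, integral_const_mul]
      change _ / Z' = Z / Z' * _ / Z
      field_simp
    have hdiff : ∫ x, f x ∂law (Wt (t + η)) - I = ∫ x, (f x - I) * (r x - 1) ∂μ := by
      rw [hnew, show (fun x => (f x - I) * (r x - 1))
          = fun x => (f x * r x - f x) - (I * r x - I) by funext x; ring]
      have hj : Integrable (fun x => f x * r x - f x) μ := hfr.sub hfi
      have hk : Integrable (fun x => I * r x) μ := hri.const_mul I
      have hk' : Integrable (fun x => I * r x - I) μ := hk.sub (integrable_const I)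
      rw [integral_sub hj hk', integral_sub hfr hfi,
        integral_sub hk (integrable_const I), integral_const_mul, hrI, integral_const,
        probReal_univ, one_smul]
      ring
    rw [hdiff]
    have hk2 : Integrable (fun x => 2 * r x - 1) μ := (hri.const_mul 2).sub (integrable_const 1)
    have hq : Integrable (fun x => (r x - 1) ^ 2) μ :=
      (hr2i.sub hk2).congr (ae_of_all _ fun x => by simp only [Pi.sub_apply]; ring)
    refine abs_integral_mul_le hψ2 hq (hS _ hW) ?_ hS0 (by positivity)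
    have e2 : ∫ x, (r x - 1) ^ 2 ∂μ = ∫ x, r x ^ 2 ∂μ - 1 := by
      rw [show (fun x => (r x - 1) ^ 2) = fun x => r x ^ 2 - (2 * r x - 1) by funext x; ring,
        integral_sub hr2i hk2, integral_sub (hri.const_mul 2) (integrable_const 1),
        integral_const_mul, hrI, integral_const, probReal_univ, one_smul]
      ring
    rw [e2, mul_pow, div_pow, sq_sqrt hm.le, ← exp_nat_mul]
    push_cast
    rw [mul_div_cancel₀ _ (two_ne_zero' ℝ)]
    have := mul_le_mul_of_nonneg_right (add_one_le_exp (-((η * δ) ^ 2 / m)))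
      (exp_pos ((η * δ) ^ 2 / m)).le
    rw [← exp_add, neg_add_cancel, exp_zero] at this
    nlinarith
  have hN : ∀ N : ℕ, 0 < N →
      |∫ x, f x ∂law W₁ - ∫ x, f x ∂law W₀| ≤ S * (δ / √m) * exp ((δ / N) ^ 2 / m / 2) := by
    intro N hN
    have hNr : (0 : ℝ) < N := by exact_mod_cast hN
    set F : ℕ → ℝ := fun k => ∫ x, f x ∂law (Wt (k / N))
    have hk : ∀ k ≤ N, |F k - F 0| ≤ k * (S * (δ / N / √m * exp ((δ / N) ^ 2 / m / 2))) := by
      intro k
      induction k with
      | zero => intro _; simp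
      | succ k ih =>
        intro hk
        have h := step (k / N) (1 / N) (by positivity) (by positivity) (by
          rw [← add_div, div_le_one hNr]; exact_mod_cast hk)
        rw [← add_div, show (1 : ℝ) / N * δ = δ / N by ring] at h
        refine (abs_sub_le _ (F k) _).trans ?_
        have h' := ih (by omega)
        simp only [F, Nat.cast_succ, Nat.cast_zero] at h' ⊢
        linarith
    have h := hk N le_rfl
    simp only [F, Nat.cast_zero, zero_div, div_self hNr.ne'] at h
    have eW : Wt 1 = W₁ ∧ Wt 0 = W₀ := ⟨by funext x; simp [Wt, g], by funext x; simp [Wt]⟩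
    rw [eW.1, eW.2] at h
    exact h.trans (le_of_eq (by field_simp))
  refine ge_of_tendsto (x := atTop) ?_ ((eventually_gt_atTop 0).mono hN)
  have h1 : Tendsto (fun N : ℕ => δ / N) atTop (𝓝 0) := tendsto_const_div_atTop_nhds_zero_nat δ
  have h2 : Continuous fun u : ℝ => S * (δ / √m) * exp (u ^ 2 / m / 2) := by fun_prop
  have h3 := (h2.tendsto 0).comp h1
  simpa [Function.comp_def] using h3

/-- A second moment bound, from scaling. -/
theorem SC.moment {d : ℕ} {W : (Fin d → ℝ) → ℝ} (h : SC m W) (hd : 2 ≤ d) (hm : 0 < m) {G : ℝ}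
    (hlow : ∀ x, m / 2 * nr x ^ 2 - G * nr x ≤ W x - W 0) :
    ∫ x, nr x ^ 2 ∂law W ≤ 8 * d / m + 2 * G ^ 2 / m ^ 2 := by
  have : IsProbabilityMeasure (law W) := h.isProb
  have hd' : (2 : ℝ) ≤ d := by exact_mod_cast hd
  set s : ℝ := 1 - 1 / (2 * d)
  set η : ℝ := 1 / (2 * d)
  have hη : 0 < η := by positivity
  have hη4 : η ≤ 1 / 4 := by simp only [η]; gcongr; linarith
  have hs : 3 / 4 ≤ s := by simp only [s]; linarith
  have hs1 : s ≤ 1 := by simp only [s]; linarith
  have hsη : 1 - s = η := by simp [s, η]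
  have hkey : ∀ x, exp (-W x) * (1 + η * (m / 2 * nr x ^ 2 - G ^ 2 / m)) ≤ exp (-W (s • x)) := by
    intro x
    have h1 := h.conv x 0 s (by linarith) hs1
    rw [smul_zero, add_zero, sub_zero, hsη] at h1
    have h2 := hlow x
    have h3 : G * nr x ≤ m / 4 * nr x ^ 2 + G ^ 2 / m := by
      have := quad_le (δ := G) (r := nr x) hm; linarith
    have h4 : (3 : ℝ) / 4 * (m / 2 * nr x ^ 2) ≤ s * (m / 2 * nr x ^ 2) :=
      mul_le_mul_of_nonneg_right hs (by positivity)
    set w := η * (m / 2 * nr x ^ 2 - G ^ 2 / m)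
    have h5 : W (s • x) ≤ W x - w := by
      have e : s * W x + η * W 0 = W x - η * (W x - W 0) := by rw [← hsη]; ring
      have h6 : m / 2 * nr x ^ 2 - G ^ 2 / m
          ≤ W x - W 0 + s * (m / 2 * nr x ^ 2) := by nlinarith [sq_nonneg (nr x)]
      simp only [w]
      linarith [mul_le_mul_of_nonneg_left h6 hη.le]
    calc exp (-W x) * (1 + w) ≤ exp (-W x) * exp w :=
          mul_le_mul_of_nonneg_left (by linarith [add_one_le_exp w]) (exp_pos _).le
      _ ≤ _ := by rw [← exp_add]; exact exp_le_exp.2 (by linarith)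
  have hA : Integrable fun x => nr x ^ 2 * exp (-W x) := integrable_mul_exp_of_grow h.cont h.grow
    (by fun_prop) (c₀ := 0) (c₁ := 1) fun x => by simp
  have hL : Integrable fun x => exp (-W x) * (1 + η * (m / 2 * nr x ^ 2 - G ^ 2 / m)) := by
    have e : (fun x => exp (-W x) * (1 + η * (m / 2 * nr x ^ 2 - G ^ 2 / m))) = fun x =>
        (1 - η * (G ^ 2 / m)) * exp (-W x) + η * (m / 2) * (nr x ^ 2 * exp (-W x)) := by
      funext x; ring
    rw [e]; exact (h.integrable.const_mul _).add (hA.const_mul _)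
  have hR : Integrable fun x => exp (-W (s • x)) :=
    h.integrable.comp_smul (R := s) (by positivity)
  have h1 := integral_mono hL hR hkey
  have h2 : ∫ x, exp (-W (s • x)) = |(s ^ d)⁻¹| * ∫ x, exp (-W x) := by
    rw [Measure.integral_comp_smul volume (fun x => exp (-W x)) s]; simp
  have hsd : |(s ^ d)⁻¹| ≤ 3 := by
    rw [abs_of_pos (by positivity), ← inv_pow]
    have e1 : s⁻¹ ≤ exp (1 / (2 * d - 1)) := by
      refine le_trans (le_of_eq ?_) (add_one_le_exp _)
      simp only [s]
      have : (2 : ℝ) * d - 1 ≠ 0 := by linarith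
      field_simp; ring
    refine (pow_le_pow_left₀ (by positivity) e1 d).trans ?_
    rw [← exp_nat_mul]
    refine (exp_le_exp.2 ?_).trans (exp_one_lt_three.le)
    rw [← mul_div_assoc, mul_one, div_le_one (by linarith)]
    linarith
  rw [h2] at h1
  have h3 := h1.trans (mul_le_mul_of_nonneg_right hsd h.pos.le)
  rw [show (fun x => exp (-W x) * (1 + η * (m / 2 * nr x ^ 2 - G ^ 2 / m))) = fun x =>
        (1 - η * (G ^ 2 / m)) * exp (-W x) + η * (m / 2) * (nr x ^ 2 * exp (-W x)) by funext x; ring,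
    integral_add (h.integrable.const_mul _) (hA.const_mul _), integral_const_mul,
    integral_const_mul] at h3
  rw [h.integral_law, div_le_iff₀ h.pos]
  have e2 : (8 * (d : ℝ) / m + 2 * G ^ 2 / m ^ 2)
      = (2 + η * (G ^ 2 / m)) / (η * (m / 2)) := by
    simp only [η]; field_simp; ring
  rw [e2, div_mul_eq_mul_div, le_div_iff₀ (by positivity)]
  linarith

end

end Vale.Agent.P347.Colour
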