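import Vale.Agent.P347.Colour.Inv
import Vale.Agent.P347.Colour.Coord

/-!
# P347: the sampler and its error
-/

namespace Vale.Agent.P347.Colour

open MeasureTheory Set Real Function
open scoped NNReal

noncomputable section

variable {d χ : ℕ} {c : Fin d → Fin χ} {V : Pt d → ℝ} {a : ℝ}

theorem nr_le_mask_sum (v : Pt d) : nr v ≤ ∑ k, nr (mask c k v) := by
  refine le_trans (le_of_eq (congrArg nr (funext fun i => ?_))) (nr_sum_le Finset.univ fun k => mask c k v)
  simp [mask, Finset.sum_apply]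

/-- A capped linear growth. -/
def cap (η : ℝ) (p : St d) : ℝ := min 1 (η * (nr p.1 + nr p.2))

theorem cap_nonneg {η : ℝ} (hη : 0 ≤ η) (p : St d) : 0 ≤ cap η p :=
  le_min zero_le_one (mul_nonneg hη (add_nonneg (nr_nonneg _) (nr_nonneg _)))

theorem cap_abs {η : ℝ} (hη : 0 ≤ η) (p : St d) : |cap η p| ≤ 1 := by
  rw [abs_of_nonneg (cap_nonneg hη p)]; exact min_le_left _ _

theorem measurable_cap (η : ℝ) : Measurable (cap η : St d → ℝ) := by unfold cap; fun_prop

theorem cap_lip {η : ℝ} (hη : 0 ≤ η) (x x' y : Pt d) :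
    |cap η (x, y) - cap η (x', y)| ≤ η * nr (x - x') := by
  have h1 : |nr x - nr x'| ≤ nr (x - x') := by
    simp only [nr, WithLp.toLp_sub]; exact abs_norm_sub_norm_le _ _
  refine (abs_min_sub_min_le_max _ _ _ _).trans (max_le (by simpa using mul_nonneg hη (nr_nonneg _)) ?_)
  rw [← mul_sub, abs_mul, abs_of_nonneg hη, add_sub_add_right_eq_sub]
  exact mul_le_mul_of_nonneg_left h1 hη

theorem Cls.prefix_cap (hV : Cls c V) (ha : 2 * (χ : ℝ) ≤ a) (ha0 : 0 < a) (hd : 2 ≤ d)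
    (hχ : 1 ≤ χ) {η : ℝ} (hη : 0 ≤ η) (l : List (Fin χ)) {n : ℕ} (hl : l.length ≤ n * χ)
    (p : St d) :
    l.foldr (blockOp a V c) (cap η) p
      ≤ η * (6 * χ * 2 ^ n) * (nr p.1 + nr p.2 + √(8 * d)) := by
  have hlip : LipW c Finset.univ (fun _ => η) (cap η) := fun x x' y _ =>
    (cap_lip hη x x' y).trans (by
      rw [← Finset.mul_sum]; exact mul_le_mul_of_nonneg_left (nr_le_mask_sum _) hη)
  obtain ⟨w, hw0, hwM, -, hw⟩ :=
    LipW.of_lip hV ha0 (measurable_cap η) (cap_abs hη) hη hlip l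
  set g := l.foldr (blockOp a V c) (cap η)
  have hg : BM g := (Good.foldr (hV.good_block ha0) l).bm ⟨measurable_cap η, 1, cap_abs hη⟩
  have h1 := hV.near_back ha0 hd hg (mul_nonneg hη (by positivity)) (hw.mono fun k =>
    (hwM k).trans (mul_le_mul_of_nonneg_left (rate_pow ha ha0 hl) hη)) p
  rw [hV.foldr_inv ha0 (f := cap η) ⟨measurable_cap η, 1, cap_abs hη⟩ p l] at h1
  obtain ⟨x, y⟩ := p
  obtain ⟨hi, hm⟩ := hV.mean_W ha0 hd y
  have := (hV.sc_W ha0 y).isProb
  have h2 : backOp a V (cap η) (x, y) ≤ η * (√(8 * d) + 2 * nr y + nr y) := by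
    refine (integral_mono (BM.integrable (f := fun z => cap η (z, y))
      ⟨(measurable_cap η).comp measurable_prodMk_right, 1, fun z => cap_abs hη _⟩ _)
      ((hi.add (integrable_const (nr y))).const_mul η) fun z => min_le_right _ _).trans ?_
    simp only [Pi.add_apply]
    rw [integral_const_mul, integral_add hi (integrable_const _), integral_const, probReal_univ,
      one_smul]
    exact mul_le_mul_of_nonneg_left (by linarith) hη
  set P := nr x + nr y + √(8 * d)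
  have hP : nr x + (√(8 * d) + 2 * nr y) ≤ 2 * P := by
    linarith [nr_nonneg x, sqrt_nonneg (8 * d : ℝ)]
  have hP' : √(8 * d) + 2 * nr y + nr y ≤ 3 * P := by
    linarith [nr_nonneg x, sqrt_nonneg (8 * d : ℝ)]
  have hP0 : 0 ≤ P := by positivity [nr_nonneg x, nr_nonneg y]
  have h3 : (1 : ℝ) ≤ χ * 2 ^ n :=
    one_le_mul_of_one_le_of_one_le (by exact_mod_cast hχ) (one_le_pow₀ one_le_two)
  have h4 : (χ : ℝ) * (η * 2 ^ n) * (nr x + (√(8 * d) + 2 * nr y))
      ≤ χ * (η * 2 ^ n) * (2 * P) := mul_le_mul_of_nonneg_left hP (by positivity)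
  have h5 : η * (√(8 * d) + 2 * nr y + nr y) ≤ η * (3 * P) := mul_le_mul_of_nonneg_left hP' hη
  nlinarith [(abs_le.1 h1).2, mul_le_mul_of_nonneg_left h3 (mul_nonneg hη hP0),
    mul_nonneg (mul_nonneg hη hP0) (show (0 : ℝ) ≤ χ * 2 ^ n by positivity)]

/-- The approximate sweeps are close to the exact backward step. -/
theorem Cls.inner_close (hV : Cls c V) (ha : 2 * (χ : ℝ) ≤ a) (ha0 : 0 < a) (hd : 2 ≤ d)
    (hχ : 1 ≤ χ) {A : Fin χ → (St d → ℝ) → St d → ℝ} (hA : ∀ k, Good (A k)) {α γ : ℝ}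
    (hα : 0 ≤ α) (hγ : 0 ≤ γ)
    (hclose : ∀ k f, Measurable f → (∀ p, |f p| ≤ 1) →
      ∀ p, |A k f p - blockOp a V c k f p| ≤ α + γ * (nr p.1 + nr p.2))
    (n : ℕ) {f : St d → ℝ} (hf : Measurable f) (hf1 : ∀ p, |f p| ≤ 1) (p : St d) :
    |(sweeps χ (n + 1)).foldr A f p - backOp a V f p| ≤ ((n + 1) * χ : ℕ) * α +
      (((n + 1) * χ : ℕ) * γ * (6 * χ * 2 ^ (n + 1)) + 3 * χ ^ 2 / 2 ^ n)
        * (nr p.1 + nr p.2 + √(8 * d)) := by
  set l := sweeps χ (n + 1)
  set e : St d → ℝ := fun q => α + 2 * cap (γ / 2) q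
  have hγ2 : 0 ≤ γ / 2 := by positivity
  have hcap : BM (cap (γ / 2) : St d → ℝ) := ⟨measurable_cap _, 1, cap_abs hγ2⟩
  have hS := hV.good_block ha0
  have hc : ∀ k g, Measurable g → (∀ q, |g q| ≤ 1) → ∀ q, |A k g q - blockOp a V c k g q| ≤ e q := by
    intro k g hg hg1 q
    have h2 : |A k g q - blockOp a V c k g q| ≤ 2 := (abs_sub _ _).trans (by
      linarith [((hA k).bdd g 1 hg hg1).2 q, ((hS k).bdd g 1 hg hg1).2 q])
    simp only [e, cap, mul_min_of_nonneg _ _ (zero_le_two (α := ℝ))]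
    rcases le_total ((2 : ℝ) * 1) (2 * (γ / 2 * (nr q.1 + nr q.2))) with h | h
    · rw [min_eq_left h]; linarith
    · rw [min_eq_right h]
      linarith [hclose k g hg hg1 q]
  have h1 := foldr_close hA hS (hcap.affine α 2) hc hf hf1 l p
  set P := nr p.1 + nr p.2 + √(8 * d)
  have hP0 : 0 ≤ P := by positivity [nr_nonneg p.1, nr_nonneg p.2]
  have h2 : ∀ j ∈ Finset.range l.length, (l.take j).foldr (blockOp a V c) e p
      ≤ α + γ * (6 * χ * 2 ^ (n + 1)) * P := by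
    intro j hj
    have := hV.prefix_cap ha ha0 hd hχ hγ2 (l.take j) (n := n + 1)
      (by rw [List.length_take, ← length_sweeps (χ := χ) (n + 1)]; exact min_le_right _ _) p
    rw [(Good.foldr hS (l.take j)).affine (cap (γ / 2)) α 2 hcap p]
    linarith
  replace h1 := h1.trans ((Finset.sum_le_sum h2).trans_eq
    (by rw [Finset.sum_const, Finset.card_range, length_sweeps, nsmul_eq_mul]))
  have hSf : BM (l.foldr (blockOp a V c) f) := (Good.foldr hS l).bm ⟨hf, 1, hf1⟩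
  have h3 := hV.near_back ha0 hd hSf (by positivity) (hV.sweep_lip ha ha0 hf hf1 n) p
  rw [hV.foldr_inv ha0 (f := f) ⟨hf, 1, hf1⟩ p l] at h3
  have h4 : (χ : ℝ) * (χ / 2 ^ n) * (nr p.1 + (√(8 * d) + 2 * nr p.2))
      ≤ χ * (χ / 2 ^ n) * (3 * P) := mul_le_mul_of_nonneg_left
    (by linarith [nr_nonneg p.1, nr_nonneg p.2, sqrt_nonneg (8 * d : ℝ)]) (by positivity)
  refine (abs_sub_le _ (l.foldr (blockOp a V c) f p) _).trans ((add_le_add h1 h3).trans ?_)
  refine (add_le_add le_rfl h4).trans (le_of_eq ?_)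
  push_cast; ring

theorem iterate_outer (φ : Pt d → ℝ) : ∀ j : ℕ,
    (List.replicate j ()).foldr (fun _ g => fwdOp a (backOp a V g)) (fun p : St d => φ p.1)
      = fun p => (outer a V)^[j] φ p.1
  | 0 => rfl
  | j + 1 => by
      rw [List.replicate_succ, List.foldr_cons, iterate_outer φ j, iterate_succ_apply']
      rfl

theorem Cls.mean_V (hV : Cls c V) (hd : 2 ≤ d) :
    Integrable nr (law V) ∧ ∫ x, nr x ∂law V ≤ √(8 * d) := by
  refine hV.sc.mean_nr (sqrt_nonneg _) ((hV.sc.moment hd one_pos (G := 0) fun x => ?_).trans ?_)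
  · linarith [hV.lower x, hV.zero]
  · rw [sq_sqrt (by positivity)]; simp

/-- Iterating the exact outer step. -/
theorem Cls.outer_iterate (hV : Cls c V) (ha : 0 < a) {φ : Pt d → ℝ} (hm : Measurable φ)
    (hB : ∀ x, |φ x| ≤ 1) {M : ℝ} (hM : 0 ≤ M) (hl : ∀ x x', |φ x - φ x'| ≤ M * nr (x - x')) :
    ∀ j : ℕ, Measurable ((outer a V)^[j] φ) ∧ (∀ x, |(outer a V)^[j] φ x| ≤ 1) ∧
      (∫ x, (outer a V)^[j] φ x ∂law V = ∫ x, φ x ∂law V) ∧
      ∀ x x', |(outer a V)^[j] φ x - (outer a V)^[j] φ x'|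
        ≤ (a / (1 + a)) ^ j * M * nr (x - x') := by
  intro j
  induction j with
  | zero => exact ⟨hm, hB, rfl, by simpa using hl⟩
  | succ j ih =>
    obtain ⟨h1, h2, h3, h4⟩ := ih
    rw [iterate_succ_apply']
    set g := (outer a V)^[j] φ
    set L := (a / (1 + a)) ^ j * M
    have hL : 0 ≤ L := by positivity
    obtain ⟨g1, g2⟩ := hV.good_outer ha h1 h2
    refine ⟨g1, g2, (hV.outer_inv ha h1 h2).trans h3, fun x x' => ?_⟩
    refine (hV.outer_lip ha h1 h2 (S := L / √(1 + a)) (div_nonneg hL (sqrt_nonneg _))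
      (fun U hU => ?_) x x').trans (le_of_eq ?_)
    · rw [div_pow, sq_sqrt (by linarith)]
      exact hU.variance_le (by linarith) (continuous_of_nr h4) h2 h4
    · rw [show L / √(1 + a) * a / √(1 + a) = L * a / (√(1 + a) * √(1 + a)) by field_simp,
        mul_self_sqrt (by linarith), pow_succ]
      simp only [L]; ring

theorem Cls.near_zero (hV : Cls c V) (hd : 2 ≤ d) {g : Pt d → ℝ} (hm : Measurable g)
    (hB : ∀ x, |g x| ≤ 1) {M : ℝ} (hM : 0 ≤ M) (hl : ∀ x x', |g x - g x'| ≤ M * nr (x - x')) :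
    |g 0 - ∫ x, g x ∂law V| ≤ M * √(8 * d) := by
  have := hV.sc.isProb
  obtain ⟨hi, hE⟩ := hV.mean_V hd
  have hg : Integrable g (law V) := BM.integrable (f := g) ⟨hm, 1, hB⟩ _
  calc |g 0 - ∫ x, g x ∂law V| = |∫ x, (g 0 - g x) ∂law V| := by
        rw [integral_sub (integrable_const _) hg, integral_const, probReal_univ, one_smul]
    _ ≤ ∫ x, M * nr x ∂law V := abs_integral_le_integral_abs.trans
        (integral_mono ((integrable_const _).sub hg).abs (hi.const_mul M) fun x =>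
          (hl 0 x).trans_eq (by rw [nr_sub_comm, sub_zero]))
    _ ≤ M * √(8 * d) := by rw [integral_const_mul]; exact mul_le_mul_of_nonneg_left hE hM

/-- The whole sampler. -/
theorem Cls.total_close (hV : Cls c V) (ha : 1 ≤ a) (hd : 2 ≤ d)
    {B : (St d → ℝ) → St d → ℝ} (hB : Good B) {A Bc : ℝ} (hA : 0 ≤ A) (hBc : 0 ≤ Bc)
    (hclose : ∀ f, Measurable f → (∀ p, |f p| ≤ 1) →
      ∀ p, |B f p - backOp a V f p| ≤ A + Bc * (nr p.1 + nr p.2 + √(8 * d)))
    (T : ℕ) {φ : Pt d → ℝ} (hm : Measurable φ) (h1 : ∀ x, |φ x| ≤ 1) :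
    |(List.replicate (T + 1) ()).foldr (fun _ g => fwdOp a (B g)) (fun p : St d => φ p.1) (0, 0)
        - ∫ x, φ x ∂law V|
      ≤ (T + 1) * (A + 6 * Bc * √(8 * d)) + a * (a / (1 + a)) ^ T * √(8 * d) := by
  have ha0 : 0 < a := by linarith
  set R := √(8 * d : ℝ)
  have hR : 0 ≤ R := sqrt_nonneg _
  have hq := sc_quad (d := d) ha0
  have := hq.isProb
  have := hV.sc.isProb
  set A2 := A + 2 * Bc * R
  set w : Pt d → ℝ := fun x => min 1 (Bc * nr x)
  have hwm : Measurable w := by fun_prop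
  have hw1 : ∀ x, |w x| ≤ 1 := fun x => by
    rw [abs_of_nonneg (le_min zero_le_one (mul_nonneg hBc (nr_nonneg x)))]; exact min_le_left _ _
  have hwl : ∀ x x', |w x - w x'| ≤ Bc * nr (x - x') := fun x x' => by
    have := cap_lip hBc x x' (0 : Pt d)
    simpa [cap, nr_zero] using this
  set e : St d → ℝ := fun p => A2 + 2 * w p.1
  have hwB : BM fun p : St d => w p.1 := ⟨hwm.comp measurable_fst, 1, fun p => hw1 _⟩
  have hF := good_fwd (d := d) ha0
  have hK : Good fun g : St d → ℝ => fwdOp a (backOp a V g) := hF.comp (hV.good_back ha0)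
  have hA' : Good fun g : St d → ℝ => fwdOp a (B g) := hF.comp hB
  obtain ⟨hni, hnm⟩ : Integrable nr (law fun n : Pt d => a / 2 * nr n ^ 2) ∧
      ∫ n, nr n ∂law (fun n : Pt d => a / 2 * nr n ^ 2) ≤ R := by
    refine hq.mean_nr hR ((hq.moment hd ha0 (G := 0) fun x => by simp [nr_zero]).trans ?_)
    rw [sq_sqrt (by positivity)]
    simpa using div_le_self (show (0 : ℝ) ≤ 8 * d by positivity) ha
  have hc : ∀ (_ : Unit) f, Measurable f → (∀ p, |f p| ≤ 1) →
      ∀ p, |fwdOp a (B f) p - fwdOp a (backOp a V f) p| ≤ e p := by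
    intro _ f hf hf1 p
    obtain ⟨g1, g2⟩ := hB.bdd f 1 hf hf1
    obtain ⟨k1, k2⟩ := (hV.good_back ha0).bdd f 1 hf hf1
    simp only [e, w, mul_min_of_nonneg _ _ (zero_le_two (α := ℝ))]
    have hA2 : 0 ≤ A2 := by positivity
    rcases le_total ((2 : ℝ) * 1) (2 * (Bc * nr p.1)) with h | h
    · rw [min_eq_left h]
      refine (abs_sub _ _).trans ?_
      linarith [(hF.bdd _ 1 g1 g2).2 p, (hF.bdd _ 1 k1 k2).2 p]
    rw [min_eq_right h]
    have hi : ∀ u : St d → ℝ, BM u → Integrable (fun n => u (p.1, p.1 + n))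
        (law fun n : Pt d => a / 2 * nr n ^ 2) := fun u hu =>
      BM.integrable (f := fun n => u (p.1, p.1 + n))
        ⟨hu.1.comp (by fun_prop), hu.2.choose, fun n => hu.2.choose_spec _⟩ _
    unfold fwdOp
    rw [← integral_sub (hi (B f) ⟨g1, 1, g2⟩) (hi (backOp a V f) ⟨k1, 1, k2⟩)]
    refine (abs_integral_le_integral_abs.trans (integral_mono
      ((hi (B f) ⟨g1, 1, g2⟩).sub (hi (backOp a V f) ⟨k1, 1, k2⟩)).abs
      ((((hni.const_mul Bc).add (integrable_const (A + Bc * (2 * nr p.1 + R))))))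
      fun n => (hclose f hf hf1 (p.1, p.1 + n)).trans ?_)).trans ?_
    · simp only [Pi.add_apply]
      nlinarith [mul_le_mul_of_nonneg_left (nr_add p.1 n) hBc]
    · simp only [Pi.add_apply]
      rw [integral_add (hni.const_mul Bc) (integrable_const _), integral_const_mul, integral_const,
        probReal_univ, one_smul]
      simp only [A2]
      linarith [mul_le_mul_of_nonneg_left hnm hBc]
  have hs := foldr_close (fun _ : Unit => hA') (fun _ : Unit => hK) (hwB.affine A2 2) hc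
    (hm.comp measurable_fst) (fun p => h1 p.1) (List.replicate (T + 1) ()) (0, 0)
  have hwE : ∫ x, w x ∂law V ≤ Bc * R := by
    have h := hV.near_zero hd hwm hw1 hBc hwl
    have h0 : w 0 = 0 := by simp [w, nr_zero]
    rw [h0] at h
    linarith [(abs_le.1 h).1]
  have hterm : ∀ j ∈ Finset.range (List.replicate (T + 1) ()).length,
      ((List.replicate (T + 1) ()).take j).foldr (fun _ g => fwdOp a (backOp a V g)) e (0, 0)
        ≤ A2 + 4 * Bc * R := by
    intro j _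
    rw [List.take_replicate, (Good.foldr (fun _ : Unit => hK) _).affine _ A2 2 hwB, iterate_outer]
    obtain ⟨i1, i2, i3, i4⟩ := hV.outer_iterate ha0 hwm hw1 hBc hwl (min j (T + 1))
    have hr : (a / (1 + a)) ^ min j (T + 1) * Bc ≤ Bc := mul_le_of_le_one_left hBc
      (pow_le_one₀ (by positivity) ((div_le_one (by linarith)).2 (by linarith)))
    have h := hV.near_zero hd i1 i2 hBc fun x x' =>
      (i4 x x').trans (mul_le_mul_of_nonneg_right hr (nr_nonneg _))
    rw [i3] at h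
    change A2 + 2 * (outer a V)^[min j (T + 1)] w 0 ≤ _
    linarith [(abs_le.1 h).2]
  replace hs := hs.trans ((Finset.sum_le_sum hterm).trans_eq
    (by rw [Finset.sum_const, Finset.card_range, List.length_replicate, nsmul_eq_mul]))
  have hlast : |(List.replicate (T + 1) ()).foldr (fun _ g => fwdOp a (backOp a V g))
      (fun p : St d => φ p.1) (0, 0) - ∫ x, φ x ∂law V| ≤ a * (a / (1 + a)) ^ T * R := by
    rw [iterate_outer, iterate_succ_apply]
    obtain ⟨g1, g2⟩ := hV.good_outer ha0 hm h1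
    have hl : ∀ x x', |outer a V φ x - outer a V φ x'| ≤ a * nr (x - x') := fun x x' => by
      refine (hV.outer_lip ha0 hm h1 zero_le_one (fun U hU => hU.variance_le_sq hm h1) x x').trans ?_
      rw [one_mul]
      exact mul_le_mul_of_nonneg_right (div_le_self ha0.le (one_le_sqrt.2 (by linarith)))
        (nr_nonneg _)
    obtain ⟨i1, i2, i3, i4⟩ := hV.outer_iterate ha0 g1 g2 ha0.le hl T
    have h := hV.near_zero hd i1 i2 (by positivity) i4
    rw [i3, hV.outer_inv ha0 hm h1] at h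
    exact h.trans (le_of_eq (by ring))
  refine (abs_sub_le _ ((List.replicate (T + 1) ()).foldr (fun _ g => fwdOp a (backOp a V g))
      (fun p : St d => φ p.1) (0, 0)) _).trans ((add_le_add hs hlast).trans (le_of_eq ?_))
  simp only [A2, Nat.cast_add, Nat.cast_one]; ring

theorem impl_fwd (ha : 0 < a) : Impl 0 fun (_ : Pt d → Resp d) => fwdOp (d := d) a :=
  ⟨Pt d, inferInstance, law (fun n : Pt d => a / 2 * nr n ^ 2), (sc_quad ha).isProb,
    fun _ w => (w.1.1, w.1.1 + w.2), Uses.zero (by fun_prop), fun _ _ _ _ _ => rfl⟩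

theorem numeric {N : ℕ} (hd : 2 ≤ d) (hχ : 1 ≤ χ) (hχd : χ ≤ d) (hNl : log (d : ℝ) + 25 ≤ N)
    (hNu : (N : ℝ) ≤ log d + 26) :
    (((2 * χ + 1) * (6 * N) : ℕ) + 1) * ((((10 * N + 1) * χ : ℕ) : ℝ)
        * (26 * d * exp (-(40 * (N : ℝ)) / 4)) +
      6 * ((((10 * N + 1) * χ : ℕ) : ℝ) * (d * (2 + 2 * (χ : ℝ)) * (1 / 3) ^ (20 * N))
        * (6 * χ * 2 ^ (10 * N + 1)) + 3 * χ ^ 2 / 2 ^ (10 * N)) * √(8 * d))
      + 2 * (χ : ℝ) * (2 * χ / (1 + 2 * χ)) ^ ((2 * χ + 1) * (6 * N)) * √(8 * d) ≤ 1 / 10 := by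
  obtain ⟨n, hn⟩ : ∃ n, n = 10 * N := ⟨_, rfl⟩
  obtain ⟨T, hT'⟩ : ∃ T, T = (2 * χ + 1) * (6 * N) := ⟨_, rfl⟩
  obtain ⟨a, ha⟩ : ∃ a : ℝ, a = 2 * χ := ⟨_, rfl⟩
  obtain ⟨α, hα⟩ : ∃ α : ℝ, α = 26 * d * exp (-(40 * (N : ℝ)) / 4) := ⟨_, rfl⟩
  obtain ⟨γ, hγ⟩ : ∃ γ : ℝ, γ = d * (2 + a) * (1 / 3 : ℝ) ^ (20 * N) := ⟨_, rfl⟩
  rw [← hn, ← hT', ← ha, ← hα, ← hγ]
  have hχr : (1 : ℝ) ≤ χ := by exact_mod_cast hχ
  have hdr : (2 : ℝ) ≤ d := by exact_mod_cast hd
  have hχdr : (χ : ℝ) ≤ d := by exact_mod_cast hχd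
  have ha0 : 0 < a := by linarith
  have hα0 : 0 ≤ α := by rw [hα]; positivity
  have hγ0 : 0 ≤ γ := by rw [hγ]; positivity
  set X := (d : ℝ) * exp (-(N : ℝ))
  have hX0 : 0 ≤ X := by positivity
  have hX : X ≤ 1 / 33554432 := by
    have h1 : exp (-(N : ℝ)) ≤ exp (-log (d : ℝ) + -25) := exp_le_exp.2 (by linarith)
    rw [exp_add, exp_neg (log _), exp_log (by linarith)] at h1
    refine (mul_le_mul_of_nonneg_left h1 (by linarith)).trans ?_
    rw [← mul_assoc, mul_inv_cancel₀ (by linarith), one_mul, exp_neg, one_div]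
    refine inv_anti₀ (by norm_num) ?_
    have h2 : (2 : ℝ) ^ 25 ≤ exp 1 ^ 25 :=
      pow_le_pow_left₀ (by norm_num) (by linarith [exp_one_gt_d9]) 25
    rw [← exp_nat_mul] at h2
    norm_num at h2
    linarith
  have pw : ∀ i j : ℕ, i ≤ j → (d : ℝ) ^ i * exp (-((j : ℝ) * N)) ≤ X ^ i := fun i j hij => by
    rw [mul_pow, ← exp_nat_mul]
    refine mul_le_mul_of_nonneg_left (exp_le_exp.2 ?_) (by positivity)
    have : (i : ℝ) * N ≤ j * N :=
      mul_le_mul_of_nonneg_right (by exact_mod_cast hij) (by linarith)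
    linarith
  have p2 : (1 : ℝ) / 2 ^ n ≤ exp (-(6 * N)) := by
    rw [one_div, show (2 : ℝ) = exp (log 2) by rw [exp_log two_pos], ← exp_nat_mul, ← exp_neg]
    refine exp_le_exp.2 (neg_le_neg ?_)
    rw [hn]; push_cast
    nlinarith [log_two_gt_d9]
  have p3 : (1 / 3 : ℝ) ^ (20 * N) * 2 ^ n ≤ exp (-(12 * N)) := by
    rw [show 20 * N = 2 * n by omega, pow_mul, ← mul_pow]
    refine (pow_le_pow_left₀ (by norm_num) (show (1 / 3 : ℝ) ^ 2 * 2 ≤ (1 / 2) ^ 2 by norm_num) n).trans ?_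
    rw [← pow_mul, mul_comm 2 n, pow_mul, show -(12 * (N : ℝ)) = ((2 : ℕ) : ℝ) * -(6 * N) by push_cast; ring,
      exp_nat_mul, one_div, inv_pow, ← one_div]
    exact pow_le_pow_left₀ (by positivity) p2 2
  have hlen : (((n + 1) * χ : ℕ) : ℝ) ≤ 154 * (d : ℝ) ^ 2 := by
    have h1 : ((n + 1 : ℕ) : ℝ) ≤ 154 * d := by
      rw [hn]; push_cast
      linarith [log_le_sub_one_of_pos (show (0 : ℝ) < d by linarith)]
    rw [Nat.cast_mul, pow_two, ← mul_assoc]
    exact mul_le_mul h1 hχdr (by positivity) (by positivity)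
  have hT : (T : ℝ) + 1 ≤ 266 * (d : ℝ) ^ 2 := by
    have h1 : (N : ℝ) ≤ 14 * d := by linarith [log_le_sub_one_of_pos (show (0 : ℝ) < d by linarith)]
    have h2 : ((2 * χ + 1 : ℕ) : ℝ) ≤ 3 * d := by push_cast; linarith
    rw [hT', Nat.cast_mul]; push_cast
    push_cast at h2
    nlinarith [mul_le_mul h2 h1 (by linarith) (by linarith)]
  have hR : √(8 * d : ℝ) ≤ 4 * d := by
    rw [sqrt_le_iff]; constructor <;> nlinarith
  have hr : (a / (1 + a)) ^ T ≤ exp (-(6 * N)) := by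
    have h1 : a / (1 + a) ≤ exp (-(1 / (1 + a))) := by
      refine le_trans (le_of_eq ?_) (one_sub_le_exp_neg _)
      field_simp; ring
    refine (pow_le_pow_left₀ (by positivity) h1 T).trans ?_
    rw [← exp_nat_mul]
    refine exp_le_exp.2 (le_of_eq ?_)
    rw [hT', ha]; push_cast; field_simp; ring
  replace hα : α = 26 * d * exp (-(10 * N)) := by rw [hα]; ring_nf
  have hBc : (((n + 1) * χ : ℕ) : ℝ) * γ * (6 * χ * 2 ^ (n + 1)) + 3 * χ ^ 2 / 2 ^ n
      ≤ 5544 * (d : ℝ) ^ 5 * exp (-(12 * N)) + 3 * (d : ℝ) ^ 2 * exp (-(6 * N)) := by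
    refine add_le_add ?_ ?_
    · calc (((n + 1) * χ : ℕ) : ℝ) * γ * (6 * χ * 2 ^ (n + 1))
          = ((n + 1) * χ : ℕ) * (d * (2 + a)) * (12 * χ) * ((1 / 3) ^ (20 * N) * 2 ^ n) := by
            rw [hγ, pow_succ]; ring
        _ ≤ 154 * (d : ℝ) ^ 2 * (d * (3 * d)) * (12 * d) * exp (-(12 * N)) :=
            mul_le_mul (mul_le_mul (mul_le_mul hlen (mul_le_mul_of_nonneg_left (by linarith)
              (by linarith)) (by positivity) (by positivity)) (by linarith) (by positivity)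
              (by positivity)) p3 (by positivity) (by positivity)
        _ = _ := by ring
    · rw [div_eq_mul_one_div]
      exact mul_le_mul (mul_le_mul_of_nonneg_left (pow_le_pow_left₀ (by linarith) hχdr 2)
        (by norm_num)) p2 (by positivity) (by positivity)
  have hXs : X ^ 2 ≤ 1 / 33554432 * (1 / 33554432) := by
    rw [pow_two]; exact mul_le_mul hX hX hX0 (by norm_num)
  have hpow : ∀ i, 2 ≤ i → X ^ i ≤ X ^ 2 := fun i hi => pow_le_pow_of_le_one hX0 (by linarith) hi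
  calc ((T : ℝ) + 1) * (((n + 1) * χ : ℕ) * α +
        6 * (((n + 1) * χ : ℕ) * γ * (6 * χ * 2 ^ (n + 1)) + 3 * χ ^ 2 / 2 ^ n) * √(8 * d))
        + a * (a / (1 + a)) ^ T * √(8 * d)
      ≤ 266 * (d : ℝ) ^ 2 * (154 * (d : ℝ) ^ 2 * α +
        6 * (5544 * (d : ℝ) ^ 5 * exp (-(12 * N)) + 3 * (d : ℝ) ^ 2 * exp (-(6 * N))) * (4 * d))
        + 2 * d * exp (-(6 * N)) * (4 * d) := by
        gcongr <;> linarith
    _ = 1065064 * ((d : ℝ) ^ 5 * exp (-((10 : ℕ) * (N : ℝ)))) +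
        35392896 * ((d : ℝ) ^ 8 * exp (-((12 : ℕ) * (N : ℝ)))) +
        19152 * ((d : ℝ) ^ 5 * exp (-((6 : ℕ) * (N : ℝ)))) +
        8 * ((d : ℝ) ^ 2 * exp (-((6 : ℕ) * (N : ℝ)))) := by
        rw [hα]; push_cast; ring
    _ ≤ 1065064 * X ^ 2 + 35392896 * X ^ 2 + 19152 * X ^ 2 + 8 * X ^ 2 := by
        gcongr ?_ + ?_ + ?_ + ?_ <;> refine mul_le_mul_of_nonneg_left ?_ (by norm_num)
        · exact (pw 5 10 (by norm_num)).trans (hpow 5 (by norm_num))
        · exact (pw 8 12 (by norm_num)).trans (hpow 8 (by norm_num))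
        · exact (pw 5 6 (by norm_num)).trans (hpow 5 (by norm_num))
        · exact pw 2 6 (by norm_num)
    _ ≤ 1 / 10 := by nlinarith


/-- The sampler for a colouring. -/
theorem sampler (c : Fin d → Fin χ) (hd : 2 ≤ d) (hχ : 1 ≤ χ) (hχd : χ ≤ d) :
    ∃ q : ℕ, (q : ℝ) ≤ 2400000000000 * χ ^ 2 * log d ^ 4 ∧
      ∃ (Ω : Type) (_ : MeasurableSpace Ω) (μ : Measure Ω), IsProbabilityMeasure μ ∧
      ∃ F : (Pt d → Resp d) → Ω → Pt d, Uses q Ω F ∧
        ∀ V, Cls c V → ∀ B : Set (Pt d), MeasurableSet B →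
          |(μ.map (F (oracle V))).real B - (law V).real B| ≤ 1 / 10 := by
  set N := ⌈log (d : ℝ)⌉₊ + 25 with hN
  set n := 10 * N
  set L : ℝ≥0 := ((40 * N : ℕ) : ℝ≥0)
  set a : ℝ := 2 * χ with ha_def
  have hχr : (1 : ℝ) ≤ χ := by exact_mod_cast hχ
  have hdr : (2 : ℝ) ≤ d := by exact_mod_cast hd
  have hχdr : (χ : ℝ) ≤ d := by exact_mod_cast hχd
  have hlog : (0.69 : ℝ) ≤ log d :=
    le_trans (by linarith [log_two_gt_d9]) (log_le_log (by norm_num) hdr)
  have ha2 : 2 * (χ : ℝ) ≤ a := le_rfl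
  have ha1 : 1 ≤ a := by linarith
  have ha0 : 0 < a := by linarith
  have hN25 : (25 : ℝ) ≤ N := by rw [hN]; push_cast; linarith [Nat.cast_nonneg (α := ℝ) ⌈log (d : ℝ)⌉₊]
  have hNl : log (d : ℝ) + 25 ≤ N := by rw [hN]; push_cast; linarith [Nat.le_ceil (log (d : ℝ))]
  have hNu : (N : ℝ) ≤ log d + 26 := by
    rw [hN]; push_cast; linarith [Nat.ceil_lt_add_one (show 0 ≤ log (d : ℝ) by linarith)]
  set T := (2 * χ + 1) * (6 * N)
  set q₁ := 40 * N * (120 * N) + 1 + 20 * N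
  have himp := Impl.foldr (fun _ : Unit => (impl_fwd (d := d) ha0).comp (Impl.foldr
    (fun k => impl_blockAlg a c (20 * N) (40 * N) (120 * N) L k) (sweeps χ (n + 1))))
    (List.replicate (T + 1) ())
  rw [List.length_replicate, length_sweeps, Nat.add_zero] at himp
  obtain ⟨Ω, _, μ, hμ, F, hF, hA⟩ := himp
  refine ⟨q₁ * ((n + 1) * χ) * (T + 1), ?_, Ω, inferInstance, μ, hμ,
    fun O ω => (F O (((0, 0) : St d), ω)).1,
    hF.map (h := fun ω : Ω => (((0, 0) : St d), ω)) (by fun_prop)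
      (g := fun b : Ω × St d => b.2.1) (by fun_prop), fun V hV B hB => ?_⟩
  · have hN0 : (0 : ℝ) ≤ N := by linarith
    have b1 : (q₁ : ℝ) ≤ 4821 * (N : ℝ) ^ 2 := by
      simp only [q₁]; push_cast; nlinarith
    have b2 : (((n + 1) * χ : ℕ) : ℝ) ≤ 11 * N * χ := by
      simp only [n]; push_cast; nlinarith
    have b3 : ((T + 1 : ℕ) : ℝ) ≤ 19 * χ * N := by
      simp only [T]; push_cast; nlinarith
    have b4 : (N : ℝ) ≤ 39 * log d := by linarith
    rw [Nat.cast_mul, Nat.cast_mul q₁]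
    calc (q₁ : ℝ) * ((n + 1) * χ : ℕ) * (T + 1 : ℕ)
        ≤ 4821 * (N : ℝ) ^ 2 * (11 * N * χ) * (19 * χ * N) :=
          mul_le_mul (mul_le_mul b1 b2 (by positivity) (by positivity)) b3 (by positivity)
            (by positivity)
      _ = 1007589 * (χ : ℝ) ^ 2 * (N : ℝ) ^ 4 := by ring
      _ ≤ 1007589 * (χ : ℝ) ^ 2 * (39 * log d) ^ 4 :=
          mul_le_mul_of_nonneg_left (pow_le_pow_left₀ hN0 b4 4) (by positivity)
      _ ≤ 2400000000000 * (χ : ℝ) ^ 2 * log d ^ 4 := by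
          have : 0 ≤ (χ : ℝ) ^ 2 * log d ^ 4 := by positivity
          nlinarith
  have hO := hV.measurable_oracle
  have hFm : Measurable fun ω => (F (oracle V) (((0, 0) : St d), ω)).1 :=
    measurable_fst.comp ((hF.measurable hO).comp measurable_prodMk_left)
  set φ : Pt d → ℝ := B.indicator 1
  have hφm : Measurable φ := measurable_one.indicator hB
  have hφ1 : ∀ x, |φ x| ≤ 1 := fun x => by
    by_cases h : x ∈ B <;> simp [φ, h]
  have := hV.sc.isProb
  have e1 : (law V).real B = ∫ x, φ x ∂law V := (integral_indicator_one hB).symm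
  have e2 : (μ.map fun ω => (F (oracle V) (((0, 0) : St d), ω)).1).real B
      = (List.replicate (T + 1) ()).foldr (fun _ g => fwdOp a ((sweeps χ (n + 1)).foldr
          (fun k g => blockAlg a c (20 * N) (40 * N) (120 * N) L k (oracle V) g) g))
        (fun p : St d => φ p.1) (0, 0) := by
    refine Eq.trans ?_ (hA _ hO (fun p : St d => φ p.1)
      ⟨hφm.comp measurable_fst, 1, fun p => hφ1 _⟩ (0, 0)).symm
    rw [← integral_indicator_one hB, integral_map hFm.aemeasurable hφm.aestronglyMeasurable]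
  rw [e1, e2]
  have hL : (L : ℝ) = 40 * N := by simp [L]
  have hgB := Good.foldr (fun k => (impl_blockAlg a c (20 * N) (40 * N) (120 * N) L k).good hO)
    (sweeps χ (n + 1))
  set α := 26 * d * exp (-(L : ℝ) / 4)
  set γ := d * (2 + a) * (1 / 3 : ℝ) ^ (20 * N)
  have hinner := fun f hf hf1 p => hV.inner_close ha2 ha0 hd hχ
    (fun k => (impl_blockAlg a c (20 * N) (40 * N) (120 * N) L k).good hO)
    (α := α) (γ := γ) (by positivity) (by positivity)
    (fun k f hf hf1 p => hV.block_close ha0.le ha0 k (20 * N) (by rw [hL]; linarith)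
      (by rw [hL]; push_cast; linarith) (by rw [hL]; push_cast; linarith) f hf hf1 p)
    n (f := f) hf hf1 p
  refine (hV.total_close ha1 hd hgB (by positivity) (by positivity) hinner T hφm hφ1).trans ?_
  simp only [α, γ, hL, a, T, n]
  exact numeric hd hχ hχd hNl hNu

end

end Vale.Agent.P347.Colour
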