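import Vale.Agent.P347.Colour.Lc

/-!
# P347: adaptive first-order algorithms as averaging operators
-/

namespace Vale.Agent.P347.Colour

open MeasureTheory Set Real

noncomputable section

variable {d : ℕ} {β γ : Type} [MeasurableSpace β] [MeasurableSpace γ]

theorem Uses.zero {α : Type} [MeasurableSpace α] {out : α → β} (h : Measurable out) :
    Uses (d := d) 0 α (fun _ a => out a) := ⟨out, h, fun _ _ => rfl⟩

theorem Uses.measurable : ∀ {n : ℕ} {α : Type} [MeasurableSpace α]
    {F : (Pt d → Resp d) → α → β}, Uses n α F → ∀ {O}, Measurable O → Measurable (F O) := by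
  intro n
  induction n with
  | zero =>
    intro α _ F ⟨out, h, he⟩ O _
    rw [show F O = out from funext (he O)]; exact h
  | succ n ih =>
    intro α _ F ⟨p, F', hp, hF', he⟩ O hO
    rw [show F O = fun a => F' O (a, O (p a)) from funext (he O)]
    exact (ih hF' hO).comp (measurable_id.prodMk (hO.comp hp))

theorem Uses.map : ∀ {n : ℕ} {α α' : Type} [MeasurableSpace α] [MeasurableSpace α']
    {F : (Pt d → Resp d) → α → β}, Uses n α F → ∀ {h : α' → α}, Measurable h →
    ∀ {g : α' × β → γ}, Measurable g → Uses n α' (fun O a => g (a, F O (h a))) := by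
  intro n
  induction n with
  | zero =>
    intro α α' _ _ F ⟨out, ho, he⟩ h hh g hg
    exact ⟨fun a => g (a, out (h a)), hg.comp (measurable_id.prodMk (ho.comp hh)),
      fun O a => by simp only [he]⟩
  | succ n ih =>
    intro α α' _ _ F ⟨p, F', hp, hF', he⟩ h hh g hg
    refine ⟨p ∘ h, _, hp.comp hh, ih hF' (h := fun b : α' × Resp d => (h b.1, b.2))
      ((hh.comp measurable_fst).prodMk measurable_snd)
      (g := fun b : (α' × Resp d) × β => g (b.1.1, b.2))
      (hg.comp ((measurable_fst.comp measurable_fst).prodMk measurable_snd)), fun O a => ?_⟩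
    simp only [he, Function.comp_apply]

theorem Uses.comp : ∀ {m n : ℕ} {α : Type} [MeasurableSpace α]
    {F : (Pt d → Resp d) → α → β} {G : (Pt d → Resp d) → α × β → γ},
    Uses m α F → Uses n (α × β) G → Uses (n + m) α (fun O a => G O (a, F O a)) := by
  intro m
  induction m with
  | zero =>
    intro n α _ F G ⟨out, ho, he⟩ hG
    have := hG.map (h := fun a : α => (a, out a)) (measurable_id.prodMk ho)
      (g := fun b : α × γ => b.2) measurable_snd
    simpa only [he, Nat.add_zero] using this
  | succ m ih =>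
    intro n α _ F G ⟨p, F', hp, hF', he⟩ hG
    exact ⟨p, _, hp, ih hF' (hG.map (h := fun b : (α × Resp d) × β => (b.1.1, b.2))
      ((measurable_fst.comp measurable_fst).prodMk measurable_snd)
      (g := fun b : ((α × Resp d) × β) × γ => b.2) measurable_snd), fun O a => by simp only [he]⟩

theorem Uses.batch : ∀ (n : ℕ) {α : Type} [MeasurableSpace α] {p : Fin n → α → Pt d},
    (∀ j, Measurable (p j)) → Uses n α (fun O a j => O (p j a)) := by
  intro n
  induction n with
  | zero => intro α _ p _; exact ⟨fun _ j => j.elim0, measurable_const, fun O a => funext (·.elim0)⟩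
  | succ n ih =>
    intro α _ p hp
    refine ⟨p 0, _, hp 0, (ih (p := fun j (b : α × Resp d) => p j.succ b.1)
      fun j => (hp _).comp measurable_fst).map (h := id) measurable_id
      (g := fun b : (α × Resp d) × (Fin n → Resp d) => Fin.cons b.1.2 b.2)
      (measurable_pi_lambda _ fun j => by refine Fin.cases ?_ (fun j => ?_) j <;> simp <;> fun_prop),
      fun O a => funext fun j => ?_⟩
    refine Fin.cases ?_ (fun j => ?_) j <;> simp

theorem Uses.iterate {α : Type} [MeasurableSpace α] {q : ℕ}
    {F : (Pt d → Resp d) → α → α} (hF : Uses q α F) :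
    ∀ G, Uses (q * G) α (fun O => (F O)^[G]) := by
  intro G
  induction G with
  | zero => exact ⟨id, measurable_id, fun _ _ => rfl⟩
  | succ G ih =>
    have := hF.comp (ih.map (h := fun b : α × α => b.2) measurable_snd
      (g := fun b : (α × α) × α => b.2) measurable_snd)
    rw [Nat.mul_succ]
    simpa [Function.iterate_succ, Function.comp_def] using this

/-- Bounded measurable functions. -/
def BM {σ : Type} [MeasurableSpace σ] (f : σ → ℝ) : Prop :=
  Measurable f ∧ ∃ B, ∀ x, |f x| ≤ B

variable {σ : Type} [MeasurableSpace σ]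

/-- An averaging operator. -/
structure Good (S : (σ → ℝ) → σ → ℝ) : Prop where
  bdd : ∀ f B, Measurable f → (∀ x, |f x| ≤ B) → Measurable (S f) ∧ ∀ x, |S f x| ≤ B
  sub : ∀ f g h, BM f → BM g → BM h → (∀ x, |f x - g x| ≤ h x) → ∀ x, |S f x - S g x| ≤ S h x
  affine : ∀ f α β, BM f → ∀ x, S (fun z => α + β * f z) x = α + β * S f x
  add : ∀ f g, BM f → BM g → ∀ x, S (fun z => f z + g z) x = S f x + S g x

theorem Good.bm {S : (σ → ℝ) → σ → ℝ} (hS : Good S) {f : σ → ℝ} (hf : BM f) : BM (S f) :=
  ⟨(hS.bdd f _ hf.1 hf.2.choose_spec).1, _, (hS.bdd f _ hf.1 hf.2.choose_spec).2⟩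

theorem BM.add {f g : σ → ℝ} (hf : BM f) (hg : BM g) : BM fun z => f z + g z :=
  ⟨hf.1.add hg.1, hf.2.choose + hg.2.choose, fun x =>
    (abs_add_le _ _).trans (add_le_add (hf.2.choose_spec x) (hg.2.choose_spec x))⟩

theorem BM.affine {f : σ → ℝ} (hf : BM f) (α β : ℝ) : BM fun z => α + β * f z := by
  obtain ⟨hm, B, hB⟩ := hf
  exact ⟨by fun_prop, |α| + |β| * B, fun x => (abs_add_le _ _).trans (add_le_add le_rfl
    ((abs_mul _ _).trans_le (mul_le_mul_of_nonneg_left (hB x) (abs_nonneg _))))⟩

theorem Good.id' : Good (fun f : σ → ℝ => f) :=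
  ⟨fun _ _ hf hB => ⟨hf, hB⟩, fun _ _ _ _ _ _ h => h, fun _ _ _ _ _ => rfl,
    fun _ _ _ _ _ => rfl⟩

theorem Good.comp {S T : (σ → ℝ) → σ → ℝ} (hS : Good S) (hT : Good T) :
    Good fun f => S (T f) := by
  refine ⟨fun f B hf hB => hS.bdd _ B (hT.bdd f B hf hB).1 (hT.bdd f B hf hB).2,
    fun f g h hf hg hh hle => hS.sub _ _ _ (hT.bm hf) (hT.bm hg) (hT.bm hh)
      (hT.sub f g h hf hg hh hle), fun f α β hf x => ?_, fun f g hf hg x => ?_⟩
  swap
  · rw [show T (fun z => f z + g z) = fun z => T f z + T g z from funext (hT.add f g hf hg)]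
    exact hS.add _ _ (hT.bm hf) (hT.bm hg) x
  rw [show T (fun z => α + β * f z) = fun z => α + β * T f z from funext (hT.affine f α β hf)]
  exact hS.affine _ α β (hT.bm hf) x

theorem BM.integrable {f : σ → ℝ} (hf : BM f) (μ : Measure σ) [IsFiniteMeasure μ] :
    Integrable f μ :=
  (integrable_const hf.2.choose).mono' hf.1.aestronglyMeasurable
    (ae_of_all _ fun x => by rw [norm_eq_abs]; exact hf.2.choose_spec x)

theorem Good.of_kernel (κ : σ → Measure σ) [∀ x, IsProbabilityMeasure (κ x)]
    {S : (σ → ℝ) → σ → ℝ} (hS : ∀ f, BM f → ∀ x, S f x = ∫ z, f z ∂κ x)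
    (hm : ∀ f, BM f → Measurable (S f)) : Good S := by
  refine ⟨fun f B hf hB => ⟨hm f ⟨hf, B, hB⟩, fun x => ?_⟩, fun f g h hf hg hh hle x => ?_,
    fun f α β hf x => ?_, fun f g hf hg x => ?_⟩
  · rw [hS f ⟨hf, B, hB⟩, ← norm_eq_abs]
    exact (norm_integral_le_of_norm_le_const (ae_of_all _ fun z => by
      rw [norm_eq_abs]; exact hB z)).trans (by simp)
  · rw [hS f hf, hS g hg, hS h hh, ← integral_sub (hf.integrable _) (hg.integrable _)]
    exact abs_integral_le_integral_abs.trans (integral_mono
      ((hf.integrable _).sub (hg.integrable _)).abs (hh.integrable _) hle)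
  · rw [hS _ (hf.affine α β), hS f hf, integral_add (integrable_const _)
      ((hf.integrable _).const_mul β), integral_const, integral_const_mul]
    simp
  · rw [hS _ (hf.add hg), hS f hf, hS g hg, integral_add (hf.integrable _) (hg.integrable _)]

/-- `A` averages a `q`-query randomized program. -/
def Impl (q : ℕ) (A : (Pt d → Resp d) → (σ → ℝ) → σ → ℝ) : Prop :=
  ∃ (Ω : Type) (_ : MeasurableSpace Ω) (μ : Measure Ω), IsProbabilityMeasure μ ∧
    ∃ F : (Pt d → Resp d) → σ × Ω → σ, Uses q (σ × Ω) F ∧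
      ∀ O, Measurable O → ∀ f, BM f → ∀ x, A O f x = ∫ ω, f (F O (x, ω)) ∂μ

theorem Impl.good {q : ℕ} {A : (Pt d → Resp d) → (σ → ℝ) → σ → ℝ} (h : Impl q A)
    {O : Pt d → Resp d} (hO : Measurable O) : Good (A O) := by
  obtain ⟨Ω, _, μ, hμ, F, hF, hA⟩ := h
  have hFm : Measurable (F O) := hF.measurable hO
  have : ∀ x, IsProbabilityMeasure (μ.map fun ω => F O (x, ω)) := fun x =>
    Measure.isProbabilityMeasure_map (hFm.comp measurable_prodMk_left).aemeasurable
  refine Good.of_kernel (fun x => μ.map fun ω => F O (x, ω)) (fun f hf x => ?_) fun f hf => ?_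
  · rw [hA O hO f hf, integral_map (φ := fun ω => F O (x, ω))
      (hFm.comp measurable_prodMk_left).aemeasurable hf.1.aestronglyMeasurable]
  · rw [funext (hA O hO f hf)]
    exact ((hf.1.comp hFm).stronglyMeasurable.integral_prod_right').measurable

theorem Impl.comp {q r : ℕ} {A B : (Pt d → Resp d) → (σ → ℝ) → σ → ℝ} (hA : Impl q A)
    (hB : Impl r B) : Impl (r + q) fun O f => A O (B O f) := by
  have hgB := fun O (hO : Measurable O) => hB.good (O := O) hO
  obtain ⟨Ω, _, μ, hμ, F, hF, hA⟩ := hA
  obtain ⟨Ω', _, ν, hν, G, hG, hB⟩ := hB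
  refine ⟨Ω × Ω', inferInstance, μ.prod ν, inferInstance,
    fun O p => G O (F O (p.1, p.2.1), p.2.2), ?_, fun O hO f hf x => ?_⟩
  · exact (hF.map (h := fun p : σ × Ω × Ω' => (p.1, p.2.1)) (by fun_prop)
      (g := fun p : (σ × Ω × Ω') × σ => p.2) measurable_snd).comp
      (hG.map (h := fun p : (σ × Ω × Ω') × σ => (p.2, p.1.2.2)) (by fun_prop)
        (g := fun p : ((σ × Ω × Ω') × σ) × σ => p.2) measurable_snd)
  · have hm : Measurable fun w : Ω × Ω' => G O (F O (x, w.1), w.2) := (hG.measurable hO).comp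
      (((hF.measurable hO).comp (measurable_const.prodMk measurable_fst)).prodMk measurable_snd)
    have hi : BM fun w : Ω × Ω' => f (G O (F O (x, w.1), w.2)) :=
      ⟨hf.1.comp hm, hf.2.choose, fun w => hf.2.choose_spec _⟩
    show A O (B O f) x = _
    rw [hA O hO _ ((hgB O hO).bm hf), integral_prod _ (hi.integrable _)]
    exact integral_congr_ae (ae_of_all _ fun ω => hB O hO f hf _)

theorem Impl.id' : Impl (d := d) 0 fun _ (f : σ → ℝ) => f :=
  ⟨Unit, inferInstance, Measure.dirac (), inferInstance, fun _ p => p.1,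
    Uses.zero measurable_fst, fun O _ f _ x => by simp⟩

theorem Impl.foldr {ι : Type} {q : ℕ} {A : ι → (Pt d → Resp d) → (σ → ℝ) → σ → ℝ}
    (h : ∀ i, Impl q (A i)) :
    ∀ l : List ι, Impl (q * l.length) fun O f => l.foldr (fun i g => A i O g) f := by
  intro l
  induction l with
  | nil => simpa using Impl.id'
  | cons i l ih =>
    rw [List.length_cons, Nat.mul_succ]
    simpa using (h i).comp ih

theorem Good.foldr {ι : Type} {S : ι → (σ → ℝ) → σ → ℝ} (h : ∀ i, Good (S i)) :
    ∀ l : List ι, Good fun f => l.foldr S f := by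
  intro l
  induction l with
  | nil => simpa using Good.id'
  | cons i l ih => simpa using (h i).comp ih

/-- Replacing the factors one at a time. -/
theorem foldr_close {ι : Type} {A S : ι → (σ → ℝ) → σ → ℝ} (hA : ∀ i, Good (A i))
    (hS : ∀ i, Good (S i)) {e : σ → ℝ} (he : BM e)
    (hclose : ∀ i f, Measurable f → (∀ x, |f x| ≤ 1) → ∀ x, |A i f x - S i f x| ≤ e x)
    {f : σ → ℝ} (hf : Measurable f) (hf1 : ∀ x, |f x| ≤ 1) :
    ∀ l : List ι, ∀ x, |l.foldr A f x - l.foldr S f x|
      ≤ ∑ j ∈ Finset.range l.length, (l.take j).foldr S e x := by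
  intro l
  induction l with
  | nil => intro x; simp
  | cons i l ih =>
    intro x
    have hAf := (Good.foldr hA l).bdd f 1 hf hf1
    have hSf := (Good.foldr hS l).bdd f 1 hf hf1
    set h := fun z => ∑ j ∈ Finset.range l.length, (l.take j).foldr S e z
    have hb : ∀ j, BM ((l.take j).foldr S e) := fun j => (Good.foldr hS _).bm he
    have hh : BM h := ⟨Finset.measurable_sum _ fun j _ => (hb j).1,
      ∑ j ∈ Finset.range l.length, (hb j).2.choose, fun z =>
        (Finset.abs_sum_le_sum_abs _ _).trans (Finset.sum_le_sum fun j _ => (hb j).2.choose_spec z)⟩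
    simp only [List.foldr_cons, List.length_cons, Finset.sum_range_succ', List.take_succ_cons,
      List.take_zero, List.foldr_nil]
    refine (abs_sub_le _ (S i (l.foldr A f) x) _).trans ?_
    have h1 := hclose i _ hAf.1 hAf.2 x
    have h2 := (hS i).sub _ _ h ⟨hAf.1, 1, hAf.2⟩ ⟨hSf.1, 1, hSf.2⟩ hh ih x
    have h3 : S i h x = ∑ j ∈ Finset.range l.length, S i ((l.take j).foldr S e) x := by
      have key : ∀ s : Finset ℕ, S i (fun z => ∑ j ∈ s, (l.take j).foldr S e z) x
          = ∑ j ∈ s, S i ((l.take j).foldr S e) x := by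
        intro s
        induction s using Finset.induction with
        | empty => simpa using (hS i).affine e 0 0 he x
        | @insert a s ha ihs =>
          have hs : BM fun z => ∑ j ∈ s, (l.take j).foldr S e z :=
            ⟨Finset.measurable_sum _ fun j _ => (hb j).1, ∑ j ∈ s, (hb j).2.choose, fun z =>
              (Finset.abs_sum_le_sum_abs _ _).trans
                (Finset.sum_le_sum fun j _ => (hb j).2.choose_spec z)⟩
          simp only [Finset.sum_insert ha, ← ihs]
          exact (hS i).add _ _ (hb a) hs x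
      exact key _
    linarith

end

end Vale.Agent.P347.Colour
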