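import Vale.Agent.P347.Colour.Model

/-!
# P347: the class of potentials with a colouring
-/

namespace Vale.Agent.P347.Colour

open MeasureTheory Set Real

noncomputable section

variable {d χ : ℕ}

theorem sum_mul_le (u v : Pt d) : |∑ i, u i * v i| ≤ nr u * nr v := by
  refine abs_le_of_sq_le_sq ?_ (mul_nonneg (nr_nonneg u) (nr_nonneg v))
  rw [mul_pow, nr_sq, nr_sq]; exact Finset.sum_mul_sq_le_sq_mul_sq _ _ _

/-- The potentials of the class, for a colouring `c`. -/
structure Cls (c : Fin d → Fin χ) (V : Pt d → ℝ) : Prop where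
  smooth : ContDiff ℝ 2 V
  zero : V 0 = 0
  crit : fderiv ℝ V 0 = 0
  curv : ∀ x u : Pt d, ∑ i, u i ^ 2 ≤ fderiv ℝ (fderiv ℝ V) x u u ∧
    fderiv ℝ (fderiv ℝ V) x u u ≤ 2 * ∑ i, u i ^ 2
  sep : ∀ x : Pt d, ∀ i j : Fin d, i ≠ j → c i = c j →
    fderiv ℝ (fderiv ℝ V) x (Pi.single i 1) (Pi.single j 1) = 0

variable {c : Fin d → Fin χ} {V : Pt d → ℝ}

theorem Cls.contDiff_fderiv (hV : Cls c V) : ContDiff ℝ 1 (fderiv ℝ V) :=
  hV.smooth.fderiv_right (by norm_num)

theorem Cls.deriv_line (hV : Cls c V) (p u : Pt d) (t : ℝ) :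
    HasDerivAt (fun t => V (p + t • u)) (fderiv ℝ V (p + t • u) u) t := by
  have h1 : HasDerivAt (fun t : ℝ => p + t • u) u t := by
    simpa using ((hasDerivAt_id t).smul_const u).const_add p
  exact ((hV.smooth.differentiable two_ne_zero) _).hasFDerivAt.comp_hasDerivAt t h1

theorem Cls.deriv2_line (hV : Cls c V) (p u v : Pt d) (t : ℝ) :
    HasDerivAt (fun t => fderiv ℝ V (p + t • v) u)
      (fderiv ℝ (fderiv ℝ V) (p + t • v) v u) t := by
  have h1 : HasDerivAt (fun t : ℝ => p + t • v) v t := by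
    simpa using ((hasDerivAt_id t).smul_const v).const_add p
  have h2 := ((hV.contDiff_fderiv.differentiable one_ne_zero) _).hasFDerivAt.comp_hasDerivAt t h1
  exact (ContinuousLinearMap.apply ℝ ℝ u).hasFDerivAt.comp_hasDerivAt t h2

theorem Cls.conv_line (hV : Cls c V) (p u : Pt d) :
    ConvexOn ℝ univ fun t : ℝ => V (p + t • u) - t ^ 2 / 2 * nr u ^ 2 := by
  have h1 : ∀ t : ℝ, HasDerivAt (fun t => V (p + t • u) - t ^ 2 / 2 * nr u ^ 2)
      (fderiv ℝ V (p + t • u) u - t * nr u ^ 2) t := fun t => by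
    have h := (((hasDerivAt_pow 2 t).div_const 2).mul_const (nr u ^ 2))
    exact (hV.deriv_line p u t).sub (by simpa using h)
  refine Monotone.convexOn_univ_of_deriv (fun t => (h1 t).differentiableAt) ?_
  rw [show deriv (fun t => V (p + t • u) - t ^ 2 / 2 * nr u ^ 2)
    = fun t => fderiv ℝ V (p + t • u) u - t * nr u ^ 2 from funext fun t => (h1 t).deriv]
  have h2 : ∀ t : ℝ, HasDerivAt (fun t => fderiv ℝ V (p + t • u) u - t * nr u ^ 2)
      (fderiv ℝ (fderiv ℝ V) (p + t • u) u u - nr u ^ 2) t := fun t =>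
    (hV.deriv2_line p u u t).sub (by simpa using (hasDerivAt_id t).mul_const (nr u ^ 2))
  refine monotone_of_deriv_nonneg (fun t => (h2 t).differentiableAt) fun t => ?_
  rw [(h2 t).deriv, sub_nonneg, nr_sq]; exact (hV.curv _ u).1

theorem Cls.conv (hV : Cls c V) (x z : Pt d) (s : ℝ) (hs : 0 ≤ s) (hs' : s ≤ 1) :
    V (s • x + (1 - s) • z) ≤ s * V x + (1 - s) * V z - 1 / 2 * s * (1 - s) * nr (x - z) ^ 2 := by
  have h := (hV.conv_line z (x - z)).2 (mem_univ (1 : ℝ)) (mem_univ 0) hs (sub_nonneg.2 hs')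
    (by ring)
  simp only [smul_eq_mul, mul_one, mul_zero, add_zero, one_smul, zero_smul,
    add_sub_cancel] at h
  rw [show z + s • (x - z) = s • x + (1 - s) • z by module] at h
  linarith

theorem Cls.lower (hV : Cls c V) (x : Pt d) : nr x ^ 2 / 2 ≤ V x := by
  have hd := ((hV.deriv_line 0 x 0).sub
    (((hasDerivAt_pow 2 (0 : ℝ)).div_const 2).mul_const (nr x ^ 2)))
  have h := (hV.conv_line 0 x).le_slope_of_hasDerivAt (mem_univ 0) (mem_univ 1) one_pos hd
  simp [slope, hV.zero, hV.crit] at h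
  linarith

theorem Cls.grad_le (hV : Cls c V) (x : Pt d) (i : Fin d) :
    |fderiv ℝ V x (Pi.single i 1)| ≤ 2 * nr x := by
  obtain ⟨t, -, ht⟩ := exists_hasDerivAt_eq_slope (fun t => fderiv ℝ V (0 + t • x) (Pi.single i 1))
    _ one_pos (continuous_iff_continuousAt.2 fun t =>
      (hV.deriv2_line 0 (Pi.single i 1) x t).continuousAt).continuousOn
    fun t _ => hV.deriv2_line 0 (Pi.single i 1) x t
  simp only [one_smul, zero_smul, zero_add, hV.crit, zero_apply, sub_zero,
    div_one] at ht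
  rw [← ht]
  set H := fderiv ℝ (fderiv ℝ V) (t • x)
  set e : Pt d := Pi.single i 1
  have hsym : H e x = H x e :=
    (hV.smooth.contDiffAt.isSymmSndFDerivAt (by simp)) e x
  have hq : ∀ s : ℝ, 0 ≤ s ^ 2 * H x x + 2 * s * H x e + H e e := fun s => by
    have h := (hV.curv (t • x) (s • x + e)).1
    simp only [map_add, map_smul, add_apply, smul_apply, smul_eq_mul] at h
    have h0 : 0 ≤ ∑ j, (s • x + e) j ^ 2 := Finset.sum_nonneg fun j _ => sq_nonneg _
    rw [hsym] at h
    nlinarith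
  have he : H e e ≤ 2 := by
    have h := (hV.curv (t • x) e).2
    simpa [e, Pi.single_apply, ite_pow] using h
  have hx : H x x ≤ 2 * nr x ^ 2 := by rw [nr_sq]; exact (hV.curv (t • x) x).2
  have := discrim_le_zero (fun s => (by linarith [hq s] :
    0 ≤ H x x * (s * s) + 2 * H x e * s + H e e))
  refine abs_le_of_sq_le_sq ?_ (by positivity [nr_nonneg x])
  rw [discrim] at this
  have hxx : 0 ≤ H x x :=
    le_trans (Finset.sum_nonneg fun j _ => sq_nonneg (x j)) (hV.curv (t • x) x).1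
  have hee : 0 ≤ H e e :=
    le_trans (Finset.sum_nonneg fun j _ => sq_nonneg (e j)) (hV.curv (t • x) e).1
  nlinarith [mul_le_mul hx he hee (by positivity)]

/-- A second difference is a mixed second derivative at some point. -/
theorem Cls.exists_mixed (hV : Cls c V) (p u v : Pt d) :
    ∃ ξ : Pt d, V (p + u + v) - V (p + u) - (V (p + v) - V p)
      = fderiv ℝ (fderiv ℝ V) ξ u v := by
  obtain ⟨t, -, ht⟩ := exists_hasDerivAt_eq_slope
    (fun t => V (p + u + t • v) - V (p + t • v)) _ one_pos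
    (continuous_iff_continuousAt.2 fun t =>
      ((hV.deriv_line (p + u) v t).sub (hV.deriv_line p v t)).continuousAt).continuousOn
    fun t _ => (hV.deriv_line (p + u) v t).sub (hV.deriv_line p v t)
  simp only [one_smul, zero_smul, add_zero, sub_zero, div_one] at ht
  obtain ⟨s, -, hs⟩ := exists_hasDerivAt_eq_slope
    (fun s => fderiv ℝ V (p + t • v + s • u) v) _ one_pos (continuous_iff_continuousAt.2 fun s =>
      (hV.deriv2_line (p + t • v) v u s).continuousAt).continuousOn
    fun s _ => hV.deriv2_line (p + t • v) v u s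
  simp only [one_smul, zero_smul, add_zero, sub_zero, div_one] at hs
  refine ⟨p + t • v + s • u, ?_⟩
  rw [hs, show p + t • v + u = p + u + t • v by abel]
  linarith

theorem Cls.hess_le (hV : Cls c V) (ξ u v : Pt d) (huv : ∀ i, u i * v i = 0) :
    |fderiv ℝ (fderiv ℝ V) ξ u v| ≤ nr u * nr v / 2 := by
  set H := fderiv ℝ (fderiv ℝ V) ξ
  have hsym : H v u = H u v := (hV.smooth.contDiffAt.isSymmSndFDerivAt (by simp)) v u
  have key : ∀ s : ℝ, |4 * s * H u v| ≤ s ^ 2 * nr u ^ 2 + nr v ^ 2 := fun s => by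
    have e : ∀ s : ℝ, nr (s • u + v) ^ 2 = s ^ 2 * nr u ^ 2 + nr v ^ 2 := fun s => by
      rw [nr_sq, nr_sq, nr_sq, Finset.mul_sum, ← Finset.sum_add_distrib]
      refine Finset.sum_congr rfl fun i _ => ?_
      simp only [Pi.add_apply, Pi.smul_apply, smul_eq_mul]
      linear_combination 2 * s * huv i
    have h1 := hV.curv ξ (s • u + v)
    have h2 := hV.curv ξ ((-s) • u + v)
    simp only [← nr_sq, e, map_add, map_smul, add_apply, smul_apply, smul_eq_mul] at h1 h2
    rw [hsym] at h1 h2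
    rw [abs_le]
    constructor <;> nlinarith
  have hz : ∀ w : Pt d, 0 = nr w → w = 0 := fun w hw => funext fun i =>
    abs_nonpos_iff.1 ((abs_apply_le_nr w i).trans hw.ge)
  rcases (nr_nonneg u).eq_or_lt with hu | hu
  · rw [← hu, hz u hu]; simp
  · rcases (nr_nonneg v).eq_or_lt with hv | hv
    · rw [← hv, hz v hv]; simp
    · have h1 := key (nr v / nr u)
      rw [abs_mul, abs_of_pos (by positivity : (0 : ℝ) < 4 * (nr v / nr u))] at h1
      field_simp at h1
      rw [le_div_iff₀ two_pos]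
      nlinarith

theorem Cls.hess_same (hV : Cls c V) (ξ : Pt d) {k : Fin χ} {u : Pt d} {j : Fin d} (t : ℝ)
    (hu : ∀ i, c i ≠ k → u i = 0) (hj : c j = k) (huj : u j = 0) :
    fderiv ℝ (fderiv ℝ V) ξ u (Pi.single j t) = 0 := by
  rw [show u = ∑ i, u i • (Pi.single i 1 : Pt d) from (pi_eq_sum_univ' u),
    show (Pi.single j t : Pt d) = t • Pi.single j 1 by
      rw [← Pi.single_smul', smul_eq_mul, mul_one]]
  simp only [map_sum, map_smul, FunLike.coe_sum, Finset.sum_apply, smul_apply, smul_eq_mul]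
  refine mul_eq_zero_of_right _ (Finset.sum_eq_zero fun i _ => ?_)
  by_cases hij : i = j
  · rw [hij, huj, zero_mul]
  by_cases hi : c i = k
  · rw [hV.sep ξ i j hij (hi.trans hj.symm), mul_zero]
  · rw [hu i hi, zero_mul]

end

end Vale.Agent.P347.Colour
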